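import Vale.Agent.P290L37.Defs
import Mathlib.Analysis.Asymptotics.Defs

/-! Approximation with interpolation of jets. -/

open scoped Manifold ContDiff Topology
open Vale.Agent.P290L

namespace Vale.Agent.N290

variable {E : Type} [NormedAddCommGroup E] [NormedSpace ℂ E] {X : Type} [TopologicalSpace X]
  [ChartedSpace E X] [IsManifold 𝓘(ℂ, E) ω X]

variable (E) in
/-- `F` and `f` have the same jet of order `k` at `a`. -/
def SameJet {m : ℕ} (k : ℕ) (a : Fin m → ℂ) (F f : (Fin m → ℂ) → X) : Prop :=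
  F a = f a ∧ (fun z => chartAt E (f a) (F z) - chartAt E (f a) (f z)) =O[𝓝 a]
    fun z => ‖z - a‖ ^ (k + 1)

/-- Approximation on `K` and interpolation of jets on a closed discrete subset `D` of a convex
domain `Ω`; `K` is convex, or a compact subset of the plane with connected complement. -/
def Interp (g : Met E X) : Prop :=
  ∀ (m : ℕ) (Ω K D U : Set (Fin m → ℂ)), IsOpen Ω → Convex ℝ Ω → IsCompact K →
    Convex ℝ K ∨ (m = 1 ∧ IsPreconnected Kᶜ) → (∀ C ⊆ Ω, IsCompact C → (D ∩ C).Finite) →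
    K ∪ D ⊆ Ω → IsOpen U → K ∪ D ⊆ U → ∀ f : (Fin m → ℂ) → X,
    MDifferentiableOn 𝓘(ℂ, Fin m → ℂ) 𝓘(ℂ, E) f U → ∀ (k : (Fin m → ℂ) → ℕ) (ε : ℝ), 0 < ε →
    ∃ F : (Fin m → ℂ) → X, MDifferentiableOn 𝓘(ℂ, Fin m → ℂ) 𝓘(ℂ, E) F Ω ∧
      (∀ z ∈ K, dist g (F z) (f z) < ENNReal.ofReal ε) ∧ ∀ a ∈ D, SameJet E (k a) a F f

end Vale.Agent.N290
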