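import Vale.Agent.N290.Scal

/-! P290: sprays which can be approximated; interpolation of jets on finite sets. -/

set_option linter.all false

open Set Filter Metric Asymptotics
open scoped Topology Manifold ContDiff

noncomputable section

namespace Vale.Agent.N290

open Vale.Agent.P290 Vale.Agent.P290Z Vale.Agent.P290.H805

variable {V W X : Type} [NormedAddCommGroup V] [NormedSpace ℂ V] [NormedAddCommGroup W]
  [NormedSpace ℂ W] [MetricSpace X] [ChartedSpace C2 X]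

/-- near `K` there is an etale spray with core `f` which is a limit of entire maps -/
def SAf (K : Set V) (f : V → X) : Prop :=
  ∃ U : Set V, IsOpen U ∧ K ⊆ U ∧ Bornology.IsBounded U ∧ ∃ ρ > (0 : ℝ), ∃ G : V × C2 → X,
    (∀ z ∈ U, (∀ s : C2, ‖s‖ ≤ ρ → MD G (z, s)) ∧ G (z, 0) = f z ∧
      All.Etale (fun s => G (z, s)) 0) ∧ Apx (U ×ˢ closedBall (0 : C2) ρ) G

theorem SAf.pull [FiniteDimensional ℂ W] {C : Set W} {f' : W → X} (h : SAf C f') {K O : Set V}
    {f : V → X} {g : V → W} (hO : IsOpen O) (hKO : K ⊆ O) (hb : Bornology.IsBounded O)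
    (hg : DifferentiableOn ℂ g O) (hK : MapsTo g K C) (hf : ∀ z ∈ O, f z = f' (g z))
    (ha : ∀ η > (0 : ℝ), ∃ θ : V → W, Differentiable ℂ θ ∧ ∀ z ∈ O, ‖θ z - g z‖ < η) :
    SAf K f := by
  have := FiniteDimensional.proper ℂ W
  obtain ⟨U, h1, h2, h3, ρ, hρ, G, h4, h5⟩ := h
  refine ⟨O ∩ g ⁻¹' U, hg.continuousOn.isOpen_inter_preimage hO h1,
    fun z hz => ⟨hKO hz, h2 (hK hz)⟩, hb.subset inter_subset_left, ρ, hρ,
    fun p => G (g p.1, p.2), fun z hz => ⟨fun s hs => ?_, ?_, (h4 _ hz.2).2.2⟩, fun ε hε => ?_⟩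
  · exact Inv.md_comp (q := fun p : V × C2 => (g p.1, p.2)) ((h4 _ hz.2).1 s hs)
      (((hg.differentiableAt (hO.mem_nhds hz.1)).comp (z, s) differentiableAt_fst).prodMk
        differentiableAt_snd)
  · rw [hf z hz.1]
    exact (h4 _ hz.2).2.1
  · obtain ⟨H, a1, a2⟩ := h5 _ (half_pos hε)
    obtain ⟨η, hη, k⟩ := Throw.unif (h3.isCompact_closure.prod (isCompact_closedBall (0 : C2) ρ))
      (f := H) (fun p _ => (a1 p).continuousAt) univ_mem (half_pos hε)
    obtain ⟨θ, t1, t2⟩ := ha η hη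
    refine ⟨fun p => H (θ p.1, p.2), fun p => Inv.md_comp (a1 _) (by fun_prop), fun p hp => ?_⟩
    have b1 := (k (g p.1, p.2) ⟨subset_closure hp.1.2, hp.2⟩ (θ p.1, p.2) (by
      rw [dist_prod_same_right, dist_eq_norm]; exact t2 _ hp.1.1)).2
    have b2 := a2 (g p.1, p.2) ⟨hp.1.2, hp.2⟩
    exact (dist_triangle _ _ _).trans_lt ((add_lt_add b1 b2).trans_eq (add_halves ε))

theorem Sep.disjoint {A B : Set V} (h : Sep A B) {z : V} (hA : z ∈ A) (hB : z ∈ B) : False := by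
  obtain ⟨u, -, h1, h2⟩ := h (1 / 2) one_half_pos
  have := norm_sub_le (u z) (u z - 1)
  rw [sub_sub_cancel, norm_one] at this
  linarith [h1 z hA, h2 z hB]

variable [IsManifold 𝓘(ℂ, C2) ω X] [FiniteDimensional ℂ V]

theorem SAf.union (hO : All.IsOka X) [ConnectedSpace X] {A B : Set V} {f : V → X} (hA : SAf A f)
    (hB : SAf B f) (h : SepN A B) : SAf (A ∪ B) f := by
  classical
  obtain ⟨U₁, U₂, o1, o2, s1, s2, hs⟩ := h
  obtain ⟨O₁, a1, a2, a3, ρ₁, hρ₁, G₁, a4, a5⟩ := hA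
  obtain ⟨O₂, b1, b2, b3, ρ₂, hρ₂, G₂, b4, b5⟩ := hB
  let G : V × C2 → X := fun p => if p.1 ∈ U₁ then G₁ p else G₂ p
  have e1 : ∀ p : V × C2, p.1 ∈ U₁ → G p = G₁ p := fun p hp => if_pos hp
  have e2 : ∀ p : V × C2, p.1 ∈ U₂ → G p = G₂ p := fun p hp => if_neg fun h => hs.disjoint h hp
  have hb : Bornology.IsBounded (O₁ ∩ U₁ ∪ O₂ ∩ U₂) :=
    (a3.subset inter_subset_left).union (b3.subset inter_subset_left)
  refine ⟨O₁ ∩ U₁ ∪ O₂ ∩ U₂, (a1.inter o1).union (b1.inter o2),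
    union_subset_union (subset_inter a2 s1) (subset_inter b2 s2), hb, min ρ₁ ρ₂, lt_min hρ₁ hρ₂,
    G, ?_, ?_⟩
  · rintro z (hz | hz)
    · refine ⟨fun s hs => MDifferentiableAt.congr_of_eventuallyEq
        ((a4 z hz.1).1 s (hs.trans (min_le_left _ _))) ?_, (e1 _ hz.2).trans (a4 z hz.1).2.1, ?_⟩
      · filter_upwards [(continuous_fst.tendsto (z, s)).eventually (o1.mem_nhds hz.2)] with p hp
        exact e1 p hp
      · rw [show (fun s => G (z, s)) = fun s => G₁ (z, s) from funext fun s => e1 _ hz.2]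
        exact (a4 z hz.1).2.2
    · refine ⟨fun s hs => MDifferentiableAt.congr_of_eventuallyEq
        ((b4 z hz.1).1 s (hs.trans (min_le_right _ _))) ?_, (e2 _ hz.2).trans (b4 z hz.1).2.1, ?_⟩
      · filter_upwards [(continuous_fst.tendsto (z, s)).eventually (o2.mem_nhds hz.2)] with p hp
        exact e2 p hp
      · rw [show (fun s => G (z, s)) = fun s => G₂ (z, s) from funext fun s => e2 _ hz.2]
        exact (b4 z hz.1).2.2
  · rw [union_prod]
    refine Apx.union hO ((a5.mono (prod_mono inter_subset_left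
      (closedBall_subset_closedBall (min_le_left _ _)))).congr fun p hp => e1 p hp.1.2)
      ((b5.mono (prod_mono inter_subset_left
      (closedBall_subset_closedBall (min_le_right _ _)))).congr fun p hp => e2 p hp.1.2) ?_
      fun η hη => ?_
    · rw [← union_prod]
      exact hb.prod isBounded_closedBall
    · obtain ⟨u, u1, u2, u3⟩ := hs η hη
      exact ⟨fun p => u p.1, u1.comp differentiable_fst, fun p hp => u2 _ hp.1.2,
        fun p hp => u3 _ hp.1.2⟩

theorem saf_good (hO : All.IsOka X) {K : Set V} (hK : Good K) {f : V → X} (hf : HN K f) :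
    SAf K f := by
  have := FiniteDimensional.proper ℂ V
  obtain ⟨G, g1, g2, g3⟩ := spr0 V X K hK f hf
  obtain ⟨ρ, hρ, -, U, M, ψ, hU, hKU, -, -, -, h, -⟩ := inv V X K hK.1 G g1 g3 1 one_pos
  obtain ⟨U', hU', hKU', h'⟩ := mem_nhdsSet_iff_exists.1 g2
  obtain ⟨δ, hδ, hsub⟩ := hK.1.exists_cthickening_subset_open (hU.inter hU')
    (subset_inter hKU hKU')
  have hs := (thickening_subset_cthickening δ K).trans hsub
  refine ⟨thickening δ K, isOpen_thickening, self_subset_thickening hδ K,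
    hK.1.isBounded.thickening, ρ / 2, half_pos hρ, G, fun z hz =>
      ⟨fun s hs' => (h z (hs hz).1 s (by linarith)).1, h' (hs hz).2,
        (h z (hs hz).1 0 (by simpa)).2.1⟩, ?_⟩
  refine (cap hO (K := cthickening δ K ×ˢ closedBall (0 : C2) (ρ / 2))
    (Conv.good_prod ⟨hK.1.cthickening, hK.2.cthickening δ⟩
      ⟨isCompact_closedBall _ _, convex_closedBall _ _⟩) ?_).mono
    (prod_mono (thickening_subset_cthickening δ K) Subset.rfl)
  exact eventually_nhdsSet_iff_exists.2 ⟨U ×ˢ ball 0 ρ, hU.prod isOpen_ball,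
    prod_mono (hsub.trans inter_subset_left) (closedBall_subset_ball (half_lt_self hρ)),
    fun p hp => (h p.1 hp.1 p.2 (mem_ball_zero_iff.1 hp.2)).1⟩

/-- the implicit function theorem for maps near the identity -/
theorem solve {O : Set V} (hO : IsOpen O) {γ : V × C2 → C2} {r δ : ℝ} (hr : 0 < r) (hδ : 0 < δ)
    (h8 : 8 * δ ≤ r) (hd : DifferentiableOn ℂ γ (O ×ˢ ball 0 r))
    (hb : ∀ p ∈ O ×ˢ ball (0 : C2) r, ‖γ p - p.2‖ ≤ δ) :
    ∃ t : V → C2, DifferentiableOn ℂ t O ∧ ∀ z ∈ O, ‖t z‖ ≤ 2 * δ ∧ γ (z, t z) = 0 := by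
  classical
  have hd' : ∀ z ∈ O, DifferentiableOn ℂ (fun s => γ (z, s) - s) (ball 0 r) := fun z hz =>
    (hd.comp (f := fun s : C2 => (z, s)) (by fun_prop) fun s hs => ⟨hz, hs⟩).sub
      differentiableOn_id
  have hb' : ∀ z ∈ O, ∀ s ∈ ball (0 : C2) r, ‖γ (z, s) - s‖ ≤ δ := fun z hz s hs =>
    hb (z, s) ⟨hz, hs⟩
  have h1 : ∀ z, ∃ c : C2, z ∈ O → ‖c‖ ≤ 2 * δ ∧ γ (z, c) = 0 := fun z => by
    by_cases hz : z ∈ O
    · obtain ⟨c, c1, c2⟩ := nearId_surj hr (hd' z hz) (hb' z hz) h8 hδ (b := 0) (by simpa using hδ.le)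
      exact ⟨c, fun _ => ⟨c1, by simpa using c2⟩⟩
    · exact ⟨0, fun h => absurd h hz⟩
  choose t ht using h1
  refine ⟨t, fun z hz => DifferentiableAt.differentiableWithinAt ?_, fun z hz => ht z hz⟩
  have h2 : ‖t z‖ < r / 2 := by linarith [(ht z hz).1]
  have hN : O ×ˢ ball (0 : C2) r ∈ 𝓝 (z, t z) :=
    (hO.prod isOpen_ball).mem_nhds ⟨hz, mem_ball_zero_iff.2 (by linarith)⟩
  have h3 : DifferentiableAt ℂ (fun s => γ (z, s)) (t z) :=
    (hd.differentiableAt hN).comp (t z) (f := fun s : C2 => (z, s)) (by fun_prop)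
  obtain ⟨σ, s1, s2, s3, s4⟩ := Inv.exists_local_inv (X := C2) (G := γ) (y := (z, t z))
    (by
      filter_upwards [(hO.prod isOpen_ball).mem_nhds (mem_of_mem_nhds hN)] with p hp
      exact (hd.differentiableAt ((hO.prod isOpen_ball).mem_nhds hp)).mdifferentiableAt)
    ⟨h3.continuousAt, h3, Inv.det_ne_iff.2 (Spr.inj_of_near h3
      (fderiv_le_of_bound hr (hd' z hz) (hb' z hz) h8 (mem_ball_zero_iff.2 h2)))⟩
  have e0 : γ (z, t z) = 0 := (ht z hz).2
  have s5 := s1.self_of_nhds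
  simp only [e0] at s2 s3 s4 s5
  have hj : Tendsto (fun u : V => (u, (0 : C2))) (𝓝 z) (𝓝 (z, 0)) :=
    (Continuous.prodMk_left (0 : C2)).tendsto z
  have s6 := (s4 V id (fun _ => 0) z differentiableAt_id mdifferentiableAt_const rfl).snd
  refine s6.congr_of_eventuallyEq ?_
  have s7 : Tendsto (fun u : V => ‖(σ (u, 0)).2‖) (𝓝 z) (𝓝 ‖t z‖) := by
    have := s6.continuousAt.norm.tendsto
    simpa only [id, s5] using this
  filter_upwards [hj.eventually s2, s7.eventually_lt_const h2, hO.mem_nhds hz] with u a1 a2 a3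
  have a4 : (σ (u, 0)).1 = u := congrArg Prod.fst a1
  have a5 : γ (σ (u, 0)) = 0 := congrArg Prod.snd a1
  refine nearId_inj hr (hd' u a3) (hb' u a3) h8 (by linarith [(ht u a3).1]) a2 ?_
  have a6 : γ (u, (σ (u, 0)).2) = 0 := by
    have : ((u, (σ (u, 0)).2) : V × C2) = σ (u, 0) := Prod.ext a4.symm rfl
    rw [this]
    exact a5
  simp [(ht u a3).2, a6]

/-- `F` agrees with `f` at `a` to order `k` -/
def Agr (k : ℕ) (a : V) (F f : V → X) : Prop :=
  F a = f a ∧ Van k a fun z => chartAt C2 (f a) (F z) - chartAt C2 (f a) (f z)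

theorem Van.zero {E : Type} [NormedAddCommGroup E] {k : ℕ} {a : V} {h : V → E} (hh : Van k a h) :
    h a = 0 := by
  obtain ⟨C, hC⟩ := hh.bound
  simpa using hC.self_of_nhds

theorem jets {K : Set V} (hK : IsCompact K) {f : V → X} (hf : SAf K f) (A : Finset V)
    (hA : ∀ a ∈ A, a ∈ K) (k : ℕ) {ε : ℝ} (hε : 0 < ε) : ∃ F : V → X, (∀ z, MD F z) ∧
      (∀ z ∈ K, dist (F z) (f z) < ε) ∧ ∀ a ∈ A, Agr k a F f := by
  have := FiniteDimensional.proper ℂ V
  obtain ⟨U, hU, hKU, -, ρ, hρ, G, hG, hap⟩ := hf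
  obtain ⟨ρ', hρ', hρρ, U₂, M, ψ, hU₂, hKU₂, hM, hψ, hψc, h1, h2⟩ := inv V X K hK G
    (eventually_nhdsSet_iff_exists.2 ⟨U ×ˢ ball 0 ρ, hU.prod isOpen_ball,
      prod_mono hKU (singleton_subset_iff.2 (mem_ball_self hρ)),
      fun p hp => (hG p.1 hp.1).1 p.2 (mem_ball_zero_iff.1 hp.2).le⟩)
    (fun z hz => (hG z (hKU hz)).2.2) ρ hρ
  obtain ⟨d, hd, hsub⟩ := hK.exists_cthickening_subset_open (hU.inter hU₂) (subset_inter hKU hKU₂)
  set T : Set (V × C2) := cthickening d K ×ˢ closedBall 0 (ρ' / 2) with hT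
  have hTc : IsCompact T := hK.cthickening.prod (isCompact_closedBall _ _)
  have hTG := fun p (hp : p ∈ T) => h1 p.1 (hsub hp.1).2 p.2
    ((mem_closedBall_zero_iff.1 hp.2).trans_lt (half_lt_self hρ'))
  obtain ⟨η, hη, k₀⟩ := Throw.unif (hK.prod (isCompact_singleton (x := (0 : C2)))) (f := G)
    (by rintro ⟨z, _⟩ ⟨hz, rfl⟩; exact ((hG z (hKU hz)).1 0 (by simpa using hρ.le)).continuousAt)
    univ_mem (half_pos hε)
  obtain ⟨C, hC, hherm⟩ := herm (F := C2) k hd hK A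
  obtain ⟨δ, hδ, d1, d2⟩ : ∃ δ > (0 : ℝ), 8 * δ ≤ ρ' / 2 ∧ C * (2 * δ) < min η ρ := by
    have hm := lt_min hη hρ
    refine ⟨min (ρ' / 16) (min η ρ / (4 * C)), by positivity, by
      linarith [min_le_left (ρ' / 16) (min η ρ / (4 * C))], ?_⟩
    have := (le_div_iff₀ (by positivity)).1 (min_le_right (ρ' / 16) (min η ρ / (4 * C)))
    linarith
  obtain ⟨δ₁, hδ₁, k₁⟩ := Throw.unif (hTc.image_of_continuousOn (f := fun p => (p.1, G p))
    (continuousOn_fst.prodMk fun p hp => (hTG p hp).1.continuousAt.continuousWithinAt))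
    (f := ψ) (by
      rintro _ ⟨p, hp, rfl⟩
      exact hψc.continuousAt (hM.mem_nhds (hTG p hp).2.2.1))
    (hM.mem_nhdsSet.2 (by
      rintro _ ⟨p, hp, rfl⟩
      exact (hTG p hp).2.2.1)) hδ
  obtain ⟨H, H1, H2⟩ := hap _ (lt_min hδ₁ (half_pos hε))
  have hcl : ∀ p ∈ thickening d K ×ˢ ball (0 : C2) (ρ' / 2),
      (p.1, H p) ∈ M ∧ ‖ψ (p.1, H p) - p.2‖ ≤ δ := fun p hp => by
    have a0 : p ∈ T := ⟨thickening_subset_cthickening _ _ hp.1, ball_subset_closedBall hp.2⟩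
    have a1 := k₁ _ ⟨p, a0, rfl⟩ (p.1, H p) (by
      rw [dist_prod_same_left]
      exact (H2 p ⟨(hsub a0.1).1, closedBall_subset_closedBall (by linarith) a0.2⟩).trans_le
        (min_le_left _ _))
    rw [(hTG p a0).2.2.2, dist_eq_norm] at a1
    exact ⟨a1.1, a1.2.le⟩
  obtain ⟨t, t1, t2⟩ := solve (isOpen_thickening (δ := d) (E := K))
    (γ := fun p => ψ (p.1, H p)) (half_pos hρ') hδ d1
    (fun p hp => (hψ _ Prod.fst H p differentiableAt_fst (H1 p)
      (hcl p hp).1).differentiableWithinAt) fun p hp => (hcl p hp).2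
  have t3 : ∀ z ∈ thickening d K, H (z, t z) = f z := fun z hz => by
    have a1 := (h2 _ (hcl (z, t z) ⟨hz, mem_ball_zero_iff.2 (by linarith [(t2 z hz).1])⟩).1).2.2
    have a2 : ψ (z, H (z, t z)) = 0 := (t2 z hz).2
    simp only [a2] at a1
    exact a1.symm.trans (hG z (hsub (thickening_subset_cthickening _ _ hz)).1).2.1
  have hbt : ∀ a ∈ A, ball a d ⊆ thickening d K := fun a ha => ball_subset_thickening (hA a ha) d
  obtain ⟨φ, p1, p2, p3⟩ := hherm t (2 * δ) (by positivity) fun a ha =>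
    ⟨t1.mono (hbt a ha), fun z hz => (t2 z (hbt a ha hz)).1⟩
  refine ⟨fun z => H (z, φ z), fun z => Inv.md_comp (H1 _) (differentiableAt_id.prodMk (p1 z)),
    fun z hz => ?_, fun a ha => ?_⟩
  · have a0 := lt_min_iff.1 ((p3 z hz).trans_lt d2)
    have a1 := (H2 (z, φ z) ⟨hKU hz, mem_closedBall_zero_iff.2 a0.2.le⟩).trans_le (min_le_right _ _)
    have a2 := (k₀ (z, 0) ⟨hz, rfl⟩ (z, φ z) (by
      rw [dist_prod_same_left, dist_zero_right]; exact a0.1)).2
    rw [(hG z (hKU hz)).2.1] at a2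
    exact (dist_triangle _ _ _).trans_lt ((add_lt_add a1 a2).trans_eq (add_halves ε))
  · have a0 : thickening d K ∈ 𝓝 a := mem_of_superset (ball_mem_nhds a hd) (hbt a ha)
    have a1 : φ a = t a := sub_eq_zero.1 (p2 a ha).zero
    have a2 := t3 a (mem_of_mem_nhds a0)
    refine ⟨by simp only [a1, a2], ?_⟩
    have a3 : HasStrictFDerivAt (fun p => chartAt C2 (f a) (H p)) _ (a, t a) :=
      (contDiffAt_of_eventually (by
        filter_upwards [(H1 (a, t a)).continuousAt.eventually (show ∀ᶠ y in 𝓝 (H (a, t a)),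
          y ∈ (chartAt C2 (f a)).source from a2 ▸ chart_source_mem_nhds C2 (f a))] with p hp
        exact Inv.md_chart (H1 p) hp) 1).hasStrictFDerivAt one_ne_zero
    have a4 : Tendsto (fun z => ((z, φ z), (z, t z))) (𝓝 a) (𝓝 ((a, t a), (a, t a))) := by
      refine (tendsto_id.prodMk_nhds ?_).prodMk_nhds
        (tendsto_id.prodMk_nhds (t1.differentiableAt a0).continuousAt)
      exact a1 ▸ p1.continuous.tendsto a
    have a5 := (a3.isBigO_sub.comp_tendsto a4).trans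
      (g := fun z => ((z, φ z) : V × C2) - (z, t z)) (k := fun z => φ z - t z)
      (IsBigO.of_bound' (Eventually.of_forall fun z => by simp [Prod.norm_def]))
    refine (a5.trans (p2 a ha)).congr' ?_ EventuallyEq.rfl
    filter_upwards [a0] with z hz
    simp only [Function.comp, t3 z hz]

end Vale.Agent.N290
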