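import Vale.Agent.P290Z.Main

/-! P290: two entire maps to an Oka surface are joined by an entire family, approximately. -/

set_option linter.all false

open Set Filter Metric
open scoped Topology Manifold ContDiff

noncomputable section

namespace Vale.Agent.N290

open Vale.Agent.P290 Vale.Agent.P290Z Vale.Agent.P290.H805

variable {V W X : Type} [NormedAddCommGroup V] [NormedSpace ℂ V] [NormedAddCommGroup W]
  [NormedSpace ℂ W] [MetricSpace X] [ChartedSpace C2 X]

/-- `f` is on `S` a uniform limit of entire maps -/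
def Apx (S : Set V) (f : V → X) : Prop :=
  ∀ ε > (0 : ℝ), ∃ F : V → X, (∀ z, MD F z) ∧ ∀ z ∈ S, dist (F z) (f z) < ε

theorem Apx.mono {S S' : Set V} {f : V → X} (h : Apx S f) (hS : S' ⊆ S) : Apx S' f :=
  fun ε hε => (h ε hε).imp fun _ hF => ⟨hF.1, fun z hz => hF.2 z (hS hz)⟩

theorem Apx.congr {S : Set V} {f g : V → X} (h : Apx S f) (hS : ∀ z ∈ S, g z = f z) : Apx S g :=
  fun ε hε => (h ε hε).imp fun _ hF => ⟨hF.1, fun z hz => hS z hz ▸ hF.2 z hz⟩

theorem md_const (x : X) (z : V) : MD (fun _ : V => x) z := mdifferentiableAt_const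

theorem hn_of {S : Set V} {f : V → X} (h : ∀ z, MD f z) : HN S f := Eventually.of_forall h

theorem cont_of {f : V → X} (h : ∀ z, MD f z) : Continuous f :=
  continuous_iff_continuousAt.2 fun z => (h z).continuousAt

/-- the convex approximation property on every finite dimensional space -/
theorem cap (hO : All.IsOka X) [FiniteDimensional ℂ V] {K : Set V} (hK : Good K) {f : V → X}
    (hf : HN K f) : Apx K f := by
  intro ε hε
  rcases K.eq_empty_or_nonempty with rfl | ⟨z₀, hz₀⟩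
  · exact ⟨fun _ => f 0, md_const _, fun z hz => hz.elim⟩
  rcases subsingleton_or_nontrivial V with hV | hV
  · exact ⟨fun _ => f z₀, md_const _, fun z _ => by rwa [Subsingleton.elim z z₀, dist_self]⟩
  have hm : 1 ≤ Module.finrank ℂ V := Module.finrank_pos
  generalize hmV : Module.finrank ℂ V = m at hm
  have e : (Fin m → ℂ) ≃L[ℂ] V := ContinuousLinearEquiv.ofFinrankEq (by simp [hmV])
  obtain ⟨U, hUo, hKU, hU⟩ := mem_nhdsSet_iff_exists.1 hf
  have hK' := Conv.good_pre e hK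
  obtain ⟨G, h1, h2⟩ := hO m (e ⁻¹' K) (e ⁻¹' U) hm hK'.1 hK'.2 ⟨e.symm z₀, by simpa using hz₀⟩
    (hUo.preimage e.continuous) (preimage_mono hKU) (fun w => f (e w))
    (fun w hw => Inv.md_iff.1 (Inv.md_comp (hU hw) e.differentiableAt)) dist continuous_dist
    dist_self ε hε
  refine ⟨fun z => G (e.symm z), fun z =>
    Inv.md_comp (Inv.md_iff.2 (h1 _)) e.symm.differentiableAt, fun z hz => ?_⟩
  simpa using h2 (e.symm z) (by simpa using hz)

variable [IsManifold 𝓘(ℂ, C2) ω X]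

theorem md_symm {y : X} {v : V → C2} {z : V} (hv : DifferentiableAt ℂ v z)
    (h : v z ∈ (chartAt C2 y).target) : MD (fun u => (chartAt C2 y).symm (v u)) z :=
  Spr.fh_iff.1 (FH.mk_symm (F := Spr.fam X) (t := ()) (x := y) hv h)

/-- moving the values on a face -/
theorem mv [FiniteDimensional ℂ V] {L K : Set V} (hL : Good L) (hK : IsCompact K) (hKL : K ⊆ L)
    {g f : V → X} (hg : HN L g) (hf : Continuous f) (ℓ : V →L[ℂ] ℂ) (hℓ : ∀ z ∈ L, (ℓ z).re ≤ 1)
    (hℓK : ∀ z ∈ K, (ℓ z).re ≤ 0) (y : X) {h : V → C2} (hh : Differentiable ℂ h)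
    (h1 : ∀ z ∈ L, (ℓ z).re = 1 → g z ∈ (chartAt C2 y).source ∧ ∀ s : ℂ, ‖s‖ ≤ 1 →
      (1 - s) • chartAt C2 y (g z) + s • h z ∈ (chartAt C2 y).target)
    {δ : ℝ} (hδ : ∀ z ∈ K, dist (g z) (f z) < δ) :
    ∃ g' : V → X, HN L g' ∧ (∀ z ∈ K, dist (g' z) (f z) < δ) ∧
      ∀ z ∈ L, ℓ z = 1 → g' z = (chartAt C2 y).symm (h z) := by
  obtain ⟨g', a1, a2, a3⟩ := R2.H596.move R2.H596.merge R2.H596.tube R2.H596.near R2.H596.clOpen
    Unit X (Spr.fam X) V () L hL g (hg.mono fun z hz => Spr.fh_iff.2 hz) ℓ hℓ y h hh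
    (fun z hz hz' => (h1 z hz hz').1) (fun z hz hz' s hs => (h1 z hz hz').2 s hs) 1 one_pos
    {p | p.1 ∈ K → dist p.2 (f p.1) < δ} (fun z hz => by
      by_cases hzK : z ∈ K
      · have c : Continuous fun p : V × X => dist p.2 (f p.1) :=
          continuous_snd.dist (hf.comp continuous_fst)
        filter_upwards [(c.tendsto (z, g z)).eventually_lt_const (hδ z hzK)] with p hp _
        exact hp
      · filter_upwards [(continuous_fst.tendsto (z, g z)).eventually
          (hK.isClosed.isOpen_compl.mem_nhds hzK)] with p hp hp'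
        exact absurd hp' hp)
  exact ⟨g', a1.mono fun z hz => Spr.fh_iff.1 hz,
    fun z hz => a2 z (hKL hz) (by linarith [hℓK z hz]) hz, a3⟩

/-- the cone over the ball of radius `R` with vertex `(0, 1)` -/
def cone (V : Type) [NormedAddCommGroup V] (R : ℝ) : Set (V × ℂ) :=
  {q | q.2.im = 0 ∧ 0 ≤ q.2.re ∧ ‖q.1‖ ≤ R * (1 - q.2.re)}

theorem cone_re {R : ℝ} (hR : 0 < R) {q : V × ℂ} (hq : q ∈ cone V R) : q.2.re ≤ 1 := by
  have := (norm_nonneg _).trans hq.2.2
  have := (mul_nonneg_iff_of_pos_left hR).1 this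
  linarith

theorem cone_top {R : ℝ} {q : V × ℂ} (hq : q ∈ cone V R) (h : q.2.re = 1) : q = (0, 1) := by
  have h1 := hq.2.2
  rw [h, sub_self, mul_zero] at h1
  exact Prod.ext (norm_le_zero_iff.1 h1) (Complex.ext h hq.1)

theorem good_cone [FiniteDimensional ℂ V] {R : ℝ} (hR : 0 < R) : Good (cone V R) := by
  have := FiniteDimensional.proper ℂ V
  constructor
  · refine Metric.isCompact_of_isClosed_isBounded ?_ ?_
    · have c1 : Continuous fun q : V × ℂ => q.2.re := by fun_prop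
      have c2 : Continuous fun q : V × ℂ => q.2.im := by fun_prop
      exact (isClosed_eq c2 continuous_const).inter ((isClosed_le continuous_const c1).inter
        (isClosed_le continuous_fst.norm (continuous_const.mul (continuous_const.sub c1))))
    · refine (isBounded_closedBall (x := (0 : V × ℂ)) (r := max R 1)).subset fun q hq => ?_
      rw [mem_closedBall_zero_iff, Prod.norm_def]
      refine max_le_max (hq.2.2.trans ?_) ?_
      · nlinarith [hq.2.1]
      · have h1 : q.2 = (q.2.re : ℂ) := Complex.ext rfl (by simpa using hq.1)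
        rw [h1, Complex.norm_real, Real.norm_of_nonneg hq.2.1]
        exact cone_re hR hq
  · rintro p hp q hq a b ha hb hab
    refine ⟨by simp [hp.1, hq.1], ?_, ?_⟩
    · have := add_nonneg (mul_nonneg ha hp.2.1) (mul_nonneg hb hq.2.1)
      simpa using this
    · have h1 : ‖a • p.1 + b • q.1‖ ≤ a * ‖p.1‖ + b * ‖q.1‖ := by
        refine (norm_add_le _ _).trans ?_
        rw [norm_smul, norm_smul, Real.norm_of_nonneg ha, Real.norm_of_nonneg hb]
      have h2 := mul_le_mul_of_nonneg_left hp.2.2 ha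
      have h3 := mul_le_mul_of_nonneg_left hq.2.2 hb
      have h4 : (a • p + b • q).2.re = a * p.2.re + b * q.2.re := by simp
      rw [h4]
      refine h1.trans ?_
      have h5 : R * (1 - (a * p.2.re + b * q.2.re)) =
          a * (R * (1 - p.2.re)) + b * (R * (1 - q.2.re)) := by
        have : b = 1 - a := by linarith
        rw [this]; ring
      linarith

/-- the standard parametrisation of a neighbourhood of `x` -/
def sg (x : X) (ρ : ℝ) (s : C2) : X := (chartAt C2 x).symm (chartAt C2 x x + (ρ : ℂ) • s)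

theorem exists_rad (x : X) : ∃ ρ > (0 : ℝ),
    closedBall (chartAt C2 x x) (3 * ρ) ⊆ (chartAt C2 x).target := by
  obtain ⟨r, hr, h⟩ := nhds_basis_closedBall.mem_iff.1
    ((chartAt C2 x).open_target.mem_nhds (mem_chart_target C2 x))
  exact ⟨r / 3, by positivity, by rwa [mul_div_cancel₀ _ three_ne_zero]⟩

theorem sg_mem {x : X} {ρ : ℝ} (hρ : 0 < ρ)
    (h : closedBall (chartAt C2 x x) (3 * ρ) ⊆ (chartAt C2 x).target) {s : C2} (hs : ‖s‖ ≤ 3) :
    chartAt C2 x x + (ρ : ℂ) • s ∈ (chartAt C2 x).target := by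
  refine h ?_
  rw [mem_closedBall, dist_eq_norm, add_sub_cancel_left, norm_smul, Complex.norm_real,
    Real.norm_of_nonneg hρ.le]
  nlinarith

theorem md_sg {x : X} {ρ : ℝ} (hρ : 0 < ρ)
    (h : closedBall (chartAt C2 x x) (3 * ρ) ⊆ (chartAt C2 x).target) {v : V → C2} {z : V}
    (hv : DifferentiableAt ℂ v z) (hs : ‖v z‖ ≤ 3) : MD (fun u => sg x ρ (v u)) z :=
  md_symm (v := fun u => chartAt C2 x x + (ρ : ℂ) • v u) ((hv.fun_const_smul _).const_add _)
    (sg_mem hρ h hs)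

/-- any value at the vertex -/
theorem vertex [ConnectedSpace X] [FiniteDimensional ℂ V] {F : V → X} (hF : ∀ z, MD F z) {R δ : ℝ}
    (hR : 0 < R) (hδ : 0 < δ) (x : X) : ∃ g : V × ℂ → X, HN (cone V R) g ∧
      (∀ z : V, ‖z‖ ≤ R → dist (g (z, 0)) (F z) < δ) ∧ g (0, 1) = x := by
  have := FiniteDimensional.proper ℂ V
  let P : X → Prop := fun x => ∃ g : V × ℂ → X, HN (cone V R) g ∧
      (∀ q ∈ closedBall (0 : V) R ×ˢ ({0} : Set ℂ), dist (g q) (F q.1) < δ) ∧ g (0, 1) = x
  have h0 : P (F 0) := ⟨fun q => F q.1, hn_of fun q => Inv.md_comp (hF _) differentiableAt_fst,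
    fun q _ => by rwa [dist_self], rfl⟩
  have hstep : ∀ y : X, ∀ᶠ a in 𝓝 y, (P y → P a) ∧ (P a → P y) := by
    intro y
    obtain ⟨ρ, hρ, hy⟩ := exists_rad y
    have key : ∀ a b : X, a ∈ (chartAt C2 y).source → b ∈ (chartAt C2 y).source →
        dist (chartAt C2 y a) (chartAt C2 y y) < ρ → dist (chartAt C2 y b) (chartAt C2 y y) < ρ →
        P a → P b := by
      rintro a b ha hb ha' hb' ⟨g, g1, g2, g3⟩
      obtain ⟨g', k1, k2, k3⟩ := mv (good_cone hR)
        ((isCompact_closedBall _ _).prod isCompact_singleton)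
        (by
          rintro ⟨z, w⟩ ⟨hz, rfl⟩
          exact ⟨rfl, le_rfl, by simpa using hz⟩) g1 ((cont_of hF).comp continuous_fst)
        (ContinuousLinearMap.snd ℂ V ℂ) (fun q hq => cone_re hR hq)
        (by rintro ⟨z, w⟩ ⟨-, rfl⟩; exact le_rfl) y (h := fun _ => chartAt C2 y b)
        (differentiable_const _) (fun q hq h1 => by
          rw [cone_top hq h1, g3]
          refine ⟨ha, fun s hs => hy ?_⟩
          rw [mem_closedBall, dist_eq_norm] at *
          have e : (1 - s) • chartAt C2 y a + s • chartAt C2 y b - chartAt C2 y y =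
              (chartAt C2 y a - chartAt C2 y y) + s • ((chartAt C2 y b - chartAt C2 y y) -
                (chartAt C2 y a - chartAt C2 y y)) := by module
          rw [e]
          refine (norm_add_le _ _).trans ?_
          rw [norm_smul]
          have := norm_sub_le (chartAt C2 y b - chartAt C2 y y) (chartAt C2 y a - chartAt C2 y y)
          have := norm_nonneg ((chartAt C2 y b - chartAt C2 y y) -
            (chartAt C2 y a - chartAt C2 y y))
          nlinarith) g2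
      refine ⟨g', k1, k2, ?_⟩
      rw [k3 (0, 1) ⟨rfl, zero_le_one, by simp⟩ rfl, (chartAt C2 y).left_inv hb]
    have hy0 := mem_chart_source C2 y
    filter_upwards [chart_source_mem_nhds C2 y,
      ((chartAt C2 y).continuousAt hy0).eventually (ball_mem_nhds _ hρ)] with a h1 h2
    exact ⟨key y a hy0 h1 (by rwa [dist_self]) h2, key a y h1 hy0 h2 (by rwa [dist_self])⟩
  have hc : IsClopen {x | P x} := by
    constructor
    · rw [← isOpen_compl_iff, isOpen_iff_mem_nhds]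
      exact fun y hy => (hstep y).mono fun a ha h => hy (ha.2 h)
    · rw [isOpen_iff_mem_nhds]
      exact fun y hy => (hstep y).mono fun a ha => ha.1 hy
  obtain ⟨g, g1, g2, g3⟩ : P x := (hc.eq_univ ⟨_, h0⟩).ge (mem_univ x)
  exact ⟨g, g1, fun z hz => g2 (z, 0) ⟨mem_closedBall_zero_iff.2 hz, rfl⟩, g3⟩

/-- an entire spray with the standard end -/
theorem stepA (hO : All.IsOka X) [ConnectedSpace X] [FiniteDimensional ℂ V] {F : V → X}
    (hF : ∀ z, MD F z) {R δ : ℝ} (hR : 0 < R) (hδ : 0 < δ) {x : X} {ρ : ℝ} (hρ : 0 < ρ)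
    (hx : closedBall (chartAt C2 x x) (3 * ρ) ⊆ (chartAt C2 x).target) :
    ∃ S : (V × ℂ) × C2 → X, (∀ p, MD S p) ∧ ∀ s : C2, ‖s‖ ≤ 1 →
      (∀ z : V, ‖z‖ ≤ R → dist (S ((z, 0), s)) (F z) < δ) ∧
        dist (S ((0, 1), s)) (sg x ρ s) < δ := by
  have := FiniteDimensional.proper ℂ V
  obtain ⟨g, g1, g2, g3⟩ := vertex hF hR (half_pos hδ) x
  have hL : Good (cone V R ×ˢ closedBall (0 : C2) 1) :=
    Conv.good_prod (good_cone hR) ⟨isCompact_closedBall _ _, convex_closedBall _ _⟩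
  obtain ⟨g', k1, k2, k3⟩ := mv hL (K := (closedBall (0 : V) R ×ˢ ({0} : Set ℂ)) ×ˢ closedBall 0 1)
    (((isCompact_closedBall _ _).prod isCompact_singleton).prod (isCompact_closedBall _ _))
    (by
      rintro ⟨⟨z, w⟩, s⟩ ⟨⟨hz, rfl⟩, hs⟩
      exact ⟨⟨rfl, le_rfl, by simpa using hz⟩, hs⟩)
    (g := fun p => g p.1) (f := fun p => F p.1.1)
    (Conv.hn_comp g1 differentiable_fst fun p hp => hp.1)
    ((cont_of hF).comp (continuous_fst.comp continuous_fst))
    ((ContinuousLinearMap.snd ℂ V ℂ).comp (ContinuousLinearMap.fst ℂ _ C2))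
    (fun q hq => cone_re hR hq.1) (by rintro ⟨⟨z, w⟩, s⟩ ⟨⟨-, rfl⟩, -⟩; exact le_rfl) x
    (h := fun p => chartAt C2 x x + (ρ : ℂ) • p.2) (by fun_prop) (fun q hq h1 => by
      rw [cone_top hq.1 h1, g3]
      refine ⟨mem_chart_source C2 x, fun s hs => ?_⟩
      have e : (1 - s) • chartAt C2 x x + s • (chartAt C2 x x + (ρ : ℂ) • q.2) =
          chartAt C2 x x + (ρ : ℂ) • (s • q.2) := by module
      rw [e]
      refine sg_mem hρ hx ?_
      rw [norm_smul]
      have := mem_closedBall_zero_iff.1 hq.2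
      nlinarith [norm_nonneg s, norm_nonneg q.2]) (δ := δ / 2)
    (by
      rintro ⟨⟨z, w⟩, s⟩ ⟨⟨hz, rfl⟩, -⟩
      exact g2 z (mem_closedBall_zero_iff.1 hz))
  obtain ⟨S, s1, s2⟩ := cap hO hL k1 _ (half_pos hδ)
  refine ⟨S, s1, fun s hs => ⟨fun z hz => ?_, ?_⟩⟩
  · have a1 := s2 ((z, 0), s) ⟨⟨rfl, le_rfl, by simpa using hz⟩, mem_closedBall_zero_iff.2 hs⟩
    have a2 := k2 ((z, 0), s) ⟨⟨mem_closedBall_zero_iff.2 hz, rfl⟩, mem_closedBall_zero_iff.2 hs⟩
    linarith [dist_triangle (S ((z, 0), s)) (g' ((z, 0), s)) (F z)]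
  · have hm : (((0 : V), (1 : ℂ)), s) ∈ cone V R ×ˢ closedBall (0 : C2) 1 :=
      ⟨⟨rfl, zero_le_one, by simp⟩, mem_closedBall_zero_iff.2 hs⟩
    have a1 := s2 _ hm
    rw [k3 _ hm rfl] at a1
    exact a1.trans (half_lt_self hδ)

/-- pinching -/
theorem pinch {S : (V × ℂ) × C2 → X} (hS : ∀ p, MD S p) (R : ℝ) {δ : ℝ} (hδ : 0 < δ) {c : ℝ}
    (hc : c * c = 1) : ∃ G : (V × ℂ) × C2 → X, (∀ p, MD G p) ∧
      (∀ z s, G ((z, ((4 * c : ℝ) : ℂ)), s) = S ((z, 0), s)) ∧
      ∀ p : (V × ℂ) × C2, ‖p.1.1‖ < R → c * p.1.2.re < 3 → ‖p.2‖ ≤ 1 →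
        dist (G p) (S ((0, 1), p.2)) < δ := by
  obtain ⟨η, hη, h⟩ := Throw.unif ((isCompact_singleton (x := ((0 : V), (1 : ℂ)))).prod
    (isCompact_closedBall (0 : C2) 1)) (f := S) (fun p _ => (hS p).continuousAt) univ_mem hδ
  have hR : 0 < |R| + 1 := by positivity
  obtain ⟨N, hN, hN0⟩ := (((Real.tendsto_exp_neg_atTop_nhds_zero.eventually
    (gt_mem_nhds (div_pos hη hR)))).and (eventually_ge_atTop 0)).exists
  let E : ℂ → ℂ := fun w => Complex.exp (N * (c * w - 4))
  have hE : Differentiable ℂ E := by fun_prop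
  refine ⟨fun p => S ((E p.1.2 • p.1.1, 1 - E p.1.2), p.2), fun p => Inv.md_comp (hS _) ?_,
    fun z s => ?_, fun p h1 h2 h3 => ?_⟩
  · have : DifferentiableAt ℂ (fun p : (V × ℂ) × C2 => E p.1.2) p :=
      (hE _).comp p (by fun_prop)
    fun_prop
  · have : E ((4 * c : ℝ) : ℂ) = 1 := by
      have e : (c : ℂ) * ((4 * c : ℝ) : ℂ) - 4 = 0 := by
        have : (c : ℂ) * c = 1 := by exact_mod_cast hc
        push_cast
        linear_combination 4 * this
      simp only [E, e, mul_zero, Complex.exp_zero]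
    simp only [this, one_smul, sub_self]
  · have a1 : ‖E p.1.2‖ ≤ Real.exp (-N) := by
      rw [Complex.norm_exp]
      refine Real.exp_le_exp.2 ?_
      have : ((N : ℂ) * (c * p.1.2 - 4)).re = N * (c * p.1.2.re - 4) := by simp
      rw [this]
      nlinarith
    have a2 : ‖E p.1.2‖ * (|R| + 1) < η := (lt_div_iff₀ hR).1 (a1.trans_lt hN)
    refine (h ((0, 1), p.2) ⟨rfl, mem_closedBall_zero_iff.2 h3⟩ _ ?_).2
    rw [dist_prod_same_right, Prod.dist_eq, dist_zero_right, dist_eq_norm, sub_sub_cancel_left,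
      norm_neg, norm_smul]
    have a3 := le_abs_self R
    have a4 := norm_nonneg (E p.1.2)
    have a5 := abs_nonneg R
    exact max_lt (by nlinarith) (by nlinarith)

/-- two entire maps are joined by an entire family -/
theorem join (hO : All.IsOka X) [ConnectedSpace X] [FiniteDimensional ℂ V] {F₁ F₂ : V → X}
    (h₁ : ∀ z, MD F₁ z) (h₂ : ∀ z, MD F₂ z) {R ε : ℝ} (hR : 0 < R) (hε : 0 < ε) :
    ∃ G : V × ℂ → X, (∀ p, MD G p) ∧ ∀ z : V, ‖z‖ ≤ R →
      dist (G (z, 0)) (F₁ z) < ε ∧ dist (G (z, 1)) (F₂ z) < ε := by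
  classical
  have := FiniteDimensional.proper ℂ V
  obtain ⟨ρ, hρ, hx⟩ := exists_rad (F₁ 0)
  generalize F₁ 0 = x at hx
  set c := chartAt C2 x with hc
  let χ : X → C2 := fun y => ((ρ : ℂ)⁻¹) • (c y - c x)
  have hρ' : (ρ : ℂ) ≠ 0 := by exact_mod_cast hρ.ne'
  have hχ : ∀ y ∈ c.source, sg x ρ (χ y) = y := fun y hy => by
    simp only [sg, χ, smul_inv_smul₀ hρ', ← hc, add_sub_cancel, c.left_inv hy]
  have hχ' : ∀ s : C2, ‖s‖ ≤ 1 → sg x ρ s ∈ c.source ∧ χ (sg x ρ s) = s := fun s hs => by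
    have a : c x + (ρ : ℂ) • s ∈ c.target := sg_mem hρ hx (s := s) (by linarith)
    refine ⟨c.map_target a, ?_⟩
    simp only [sg, χ, ← hc, c.right_inv a, add_sub_cancel_left, inv_smul_smul₀ hρ']
  let L : Set (V × ℂ) := closedBall (0 : V) R ×ˢ (Complex.ofRealCLM '' Icc (-4 : ℝ) 4)
  have hL : Good L := Conv.good_prod ⟨isCompact_closedBall _ _, convex_closedBall _ _⟩
    ⟨isCompact_Icc.image Complex.ofRealCLM.continuous,
      (convex_Icc _ _).linear_image Complex.ofRealCLM.toLinearMap⟩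
  let h : V × ℂ → ℂ := fun q => -q.2 ^ 2
  have hh : Differentiable ℂ h := by fun_prop
  have hu : Continuous fun q => (h q).re := Complex.continuous_re.comp hh.continuous
  have hre : ∀ q ∈ L, (h q).re = -q.2.re ^ 2 := by
    rintro ⟨z, _⟩ ⟨-, t, -, rfl⟩
    simp [h, ← Complex.ofReal_pow]
  have cre : Continuous fun q : V × ℂ => q.2.re := by fun_prop
  let W : Set (V × ℂ) := {q | ‖q.1‖ < R + 1 ∧ 0 < |q.2.re| ∧ |q.2.re| < 3}
  have hW : IsOpen W := (isOpen_lt continuous_fst.norm continuous_const).inter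
    ((isOpen_lt continuous_const cre.abs).inter (isOpen_lt cre.abs continuous_const))
  have hZW : L ∩ {q | -4 ≤ (h q).re ∧ (h q).re ≤ -1} ⊆ W := fun q hq => by
    have a1 := hq.2.1
    have a2 := hq.2.2
    rw [hre q hq.1, ← sq_abs] at a1 a2
    have a3 := abs_nonneg q.2.re
    exact ⟨by linarith [mem_closedBall_zero_iff.1 hq.1.1], by nlinarith, by nlinarith⟩
  obtain ⟨δ, hδ, hglue⟩ := glue (V × ℂ) L hL h hh (-4) (-1) (by norm_num) W hW hZW 1 one_pos 1
    one_pos
  have hσ : ∀ s : C2, ‖s‖ ≤ 1 → MD (sg x ρ) s := fun s hs =>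
    md_sg hρ hx differentiableAt_id (hs.trans (by norm_num))
  obtain ⟨δ₁, hδ₁, k₁⟩ := Throw.unif ((isCompact_closedBall (0 : C2) 1).image_of_continuousOn
    (f := sg x ρ) fun s hs => (hσ s (mem_closedBall_zero_iff.1 hs)).continuousAt.continuousWithinAt)
    (f := χ) (N := c.source) (by
      rintro _ ⟨s, hs, rfl⟩
      exact ContinuousAt.const_smul (g := fun y => c y - c x)
        ((c.continuousAt (hχ' s (mem_closedBall_zero_iff.1 hs)).1).sub continuousAt_const) ((ρ : ℂ)⁻¹))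
    (c.open_source.mem_nhdsSet.2 (by
      rintro _ ⟨s, hs, rfl⟩
      exact (hχ' s (mem_closedBall_zero_iff.1 hs)).1)) hδ
  have hm : 0 < min (δ₁ / 2) (ε / 2) := lt_min (half_pos hδ₁) (half_pos hε)
  obtain ⟨S₁, s1, s2⟩ := stepA hO h₁ hR hm hρ hx
  obtain ⟨S₂, s3, s4⟩ := stepA hO h₂ hR hm hρ hx
  obtain ⟨G₁, g1, g2, g3⟩ := pinch s1 (R + 1) (half_pos hδ₁) (c := -1) (by norm_num)
  obtain ⟨G₂, g4, g5, g6⟩ := pinch s3 (R + 1) (half_pos hδ₁) (c := 1) (by norm_num)
  let B : (V × ℂ) × C2 → X := fun p => if p.1.2.re < 0 then G₁ p else G₂ p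
  have hB : ∀ p : (V × ℂ) × C2, p.1.2.re ≠ 0 → MD B p := fun p hp => by
    have c2 : Continuous fun p : (V × ℂ) × C2 => p.1.2.re := cre.comp continuous_fst
    rcases lt_or_gt_of_ne hp with h1 | h1
    · refine MDifferentiableAt.congr_of_eventuallyEq (g1 p) ?_
      filter_upwards [(c2.tendsto p).eventually_lt_const h1] with q hq using if_pos hq
    · refine MDifferentiableAt.congr_of_eventuallyEq (g4 p) ?_
      filter_upwards [(c2.tendsto p).eventually_const_lt h1] with q hq using if_neg hq.not_gt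
  have hcl : ∀ p : (V × ℂ) × C2, p.1 ∈ W → ‖p.2‖ < 1 → B p ∈ c.source ∧ ‖χ (B p) - p.2‖ ≤ δ := by
    intro p hp hs
    have a0 := abs_lt.1 hp.2.2
    have a1 : dist (B p) (sg x ρ p.2) < δ₁ := by
      have b := min_le_left (δ₁ / 2) (ε / 2)
      simp only [B]
      split_ifs
      · linarith [dist_triangle (G₁ p) (S₁ ((0, 1), p.2)) (sg x ρ p.2),
          g3 p hp.1 (by linarith) hs.le, (s2 p.2 hs.le).2]
      · linarith [dist_triangle (G₂ p) (S₂ ((0, 1), p.2)) (sg x ρ p.2),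
          g6 p hp.1 (by linarith) hs.le, (s4 p.2 hs.le).2]
    have a2 := k₁ _ ⟨p.2, mem_closedBall_zero_iff.2 hs.le, rfl⟩ _ a1
    rw [(hχ' p.2 hs.le).2, dist_eq_norm] at a2
    exact ⟨a2.1, a2.2.le⟩
  obtain ⟨α, τ, hα, hτ, hα₁, hτ₁, hατ⟩ := hglue (fun p => χ (B p) - p.2)
    (fun p hp => ((((Inv.md_chart (hB p (abs_pos.1 hp.1.2.1))
      (hcl p hp.1 (mem_ball_zero_iff.1 hp.2)).1).sub_const _).fun_const_smul _).fun_sub
        differentiableAt_snd).differentiableWithinAt)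
    fun p hp => (hcl p hp.1 (mem_ball_zero_iff.1 hp.2)).2
  have hF := Crx.patch (L := L) hu (a := -4) (b := -1) (c := -2) (by norm_num) (by norm_num)
    (f := fun q => sg x ρ (α q)) (g := fun q => B (q, τ q))
    (eventually_nhdsSet_iff_forall.2 fun q hq => by
      filter_upwards [eventually_nhdsSet_iff_forall.1 hα q hq,
        (hα.self_of_nhdsSet q hq).continuousAt.norm.eventually (gt_mem_nhds (hα₁ q hq.1 hq.2))]
        with z a1 a2
      exact md_sg hρ hx a1 (by linarith))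
    (eventually_nhdsSet_iff_forall.2 fun q hq => by
      have a0 : q.2.re ≠ 0 := fun h0 => by
        have := hq.2
        rw [mem_setOf_eq, hre q hq.1, h0] at this
        norm_num at this
      filter_upwards [eventually_nhdsSet_iff_forall.1 hτ q hq, (cre.tendsto q).eventually_ne a0]
        with z a1 a2
      exact Inv.md_comp (hB (z, τ z) a2) (differentiableAt_id.prodMk a1))
    (eventually_nhdsSet_iff_forall.2 fun q hq => by
      filter_upwards [eventually_nhdsSet_iff_forall.1 hατ q hq, hW.mem_nhds (hZW hq),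
        (hτ.self_of_nhdsSet q ⟨hq.1, hq.2.2⟩).continuousAt.norm.eventually
          (gt_mem_nhds (hτ₁ q hq.1 hq.2.2))] with z a1 a2 a3
      rw [sub_left_injective a1]
      exact hχ _ (hcl (z, τ z) a2 a3).1)
  obtain ⟨F, f1, f2⟩ := cap hO hL hF _ (half_pos hε)
  refine ⟨fun q => F (q.1, 8 * q.2 - 4), fun q => Inv.md_comp (f1 _) (by fun_prop),
    fun z hz => ?_⟩
  have hm1 : ∀ t : ℝ, t * t = 1 → (z, ((4 * t : ℝ) : ℂ)) ∈ L ∧
      (h (z, ((4 * t : ℝ) : ℂ))).re = -16 := fun t ht => by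
    have a : (z, ((4 * t : ℝ) : ℂ)) ∈ L :=
      ⟨mem_closedBall_zero_iff.2 hz, 4 * t, ⟨by nlinarith, by nlinarith⟩, rfl⟩
    refine ⟨a, ?_⟩
    rw [hre _ a, Complex.ofReal_re]
    nlinarith
  have b := min_le_right (δ₁ / 2) (ε / 2)
  constructor
  · obtain ⟨a1, a2⟩ := hm1 (-1) (by norm_num)
    have a3 := f2 _ a1
    have a4 := hτ₁ _ a1 (by rw [a2]; norm_num)
    beta_reduce at a3
    rw [if_neg (by rw [a2]; norm_num)] at a3
    simp only [B] at a3
    rw [if_pos (by norm_num), g2] at a3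
    have e : (8 : ℂ) * 0 - 4 = ((4 * -1 : ℝ) : ℂ) := by push_cast; ring
    simp only [e]
    exact (dist_triangle _ _ _).trans_lt ((add_lt_add a3
      (((s2 _ a4.le).1 z hz).trans_le b)).trans_eq (add_halves ε))
  · obtain ⟨a1, a2⟩ := hm1 1 (by norm_num)
    have a3 := f2 _ a1
    have a4 := hτ₁ _ a1 (by rw [a2]; norm_num)
    beta_reduce at a3
    rw [if_neg (by rw [a2]; norm_num)] at a3
    simp only [B] at a3
    rw [if_neg (by norm_num), g5] at a3
    have e : (8 : ℂ) * 1 - 4 = ((4 * 1 : ℝ) : ℂ) := by push_cast; ring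
    simp only [e]
    exact (dist_triangle _ _ _).trans_lt ((add_lt_add a3
      (((s4 _ a4.le).1 z hz).trans_le b)).trans_eq (add_halves ε))

/-- separation by entire functions -/
def Sep (A B : Set V) : Prop := ∀ η > (0 : ℝ), ∃ u : V → ℂ, Differentiable ℂ u ∧
  (∀ z ∈ A, ‖u z‖ < η) ∧ ∀ z ∈ B, ‖u z - 1‖ < η

/-- approximation on the union of two separated sets -/
theorem Apx.union (hO : All.IsOka X) [ConnectedSpace X] [FiniteDimensional ℂ V] {A B : Set V}
    {f : V → X} (hA : Apx A f) (hB : Apx B f) (hb : Bornology.IsBounded (A ∪ B)) (h : Sep A B) :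
    Apx (A ∪ B) f := by
  have := FiniteDimensional.proper ℂ V
  intro ε hε
  have hε' : 0 < ε / 3 := by positivity
  obtain ⟨F₁, a1, a2⟩ := hA _ hε'
  obtain ⟨F₂, a3, a4⟩ := hB _ hε'
  obtain ⟨R, hR, hR'⟩ := hb.exists_pos_norm_le
  obtain ⟨G, g1, g2⟩ := join hO a1 a3 hR hε'
  obtain ⟨η, hη, k⟩ := Throw.unif ((isCompact_closedBall (0 : V) R).prod
    (isCompact_closedBall (0 : ℂ) 1)) (f := G) (fun p _ => (g1 p).continuousAt) univ_mem hε'
  obtain ⟨u, u1, u2, u3⟩ := h η hη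
  refine ⟨fun z => G (z, u z), fun z => Inv.md_comp (g1 _) (differentiableAt_id.prodMk (u1 z)),
    fun z hz => ?_⟩
  have hz' := hR' z hz
  rcases hz with hz | hz
  · have b := (k (z, 0) ⟨mem_closedBall_zero_iff.2 hz', by simp⟩ (z, u z) (by
      rw [dist_prod_same_left, dist_zero_right]; exact u2 z hz)).2
    linarith [dist_triangle4 (G (z, u z)) (G (z, 0)) (F₁ z) (f z), (g2 z hz').1, a2 z hz]
  · have b := (k (z, 1) ⟨mem_closedBall_zero_iff.2 hz', by simp⟩ (z, u z) (by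
      rw [dist_prod_same_left, dist_eq_norm]; exact u3 z hz)).2
    linarith [dist_triangle4 (G (z, u z)) (G (z, 1)) (F₂ z) (f z), (g2 z hz').2, a4 z hz]

end Vale.Agent.N290
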