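import Vale.Agent.N290.Jet

/-! P290: interpolation on discrete sets; strongly dominating maps. -/

set_option linter.all false

open Set Filter Metric Asymptotics
open scoped Topology Manifold ContDiff

noncomputable section

namespace Vale.Agent.N290

open Vale.Agent.P290 Vale.Agent.P290Z Vale.Agent.P290.H805

variable {V X : Type} [NormedAddCommGroup V] [NormedSpace ℂ V] [MetricSpace X]
  [ChartedSpace C2 X]

theorem Agr.trans {k : ℕ} {a : V} {F g f : V → X} (h : Agr k a F g) (h' : Agr k a g f) :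
    Agr k a F f := by
  refine ⟨h.1.trans h'.1, ?_⟩
  have h2 := h.2
  rw [h'.1] at h2
  exact (IsBigO.add h2 h'.2).congr_left fun z => sub_add_sub_cancel _ _ _

theorem Agr.congr {k : ℕ} {a : V} {F g f : V → X} (h : Agr k a F g) (h' : g =ᶠ[𝓝 a] f) :
    Agr k a F f := by
  refine h.trans ⟨h'.self_of_nhds, (isBigO_zero _ _).congr' ?_ EventuallyEq.rfl⟩
  filter_upwards [h'] with z hz
  rw [hz, sub_self]

theorem Agr.mono {k l : ℕ} {a : V} {F f : V → X} (h : Agr k a F f) (hl : l ≤ k) : Agr l a F f :=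
  ⟨h.1, h.2.mono hl⟩

variable (X) in
/-- compact sets with the approximation property -/
def PK (K : Set V) : Prop := IsCompact K ∧ (∀ f : V → X, HN K f → SAf K f) ∧ Peak K

theorem lim_seq [CompleteSpace X] {L : ℕ → Set V} (hm : Monotone L) {F : ℕ → V → X} {ε : ℝ}
    (h : ∀ n, ∀ z ∈ L n, dist (F n z) (F (n + 1) z) ≤ ε / 2 / 2 ^ n) :
    ∃ G : V → X, ∀ n, ∀ z ∈ L n, ∀ m, n ≤ m → dist (F m z) (G z) ≤ ε / 2 ^ m := by
  have : Nonempty X := ⟨F 0 0⟩
  refine ⟨fun z => limUnder atTop fun n => F n z, fun n z hz m hnm => ?_⟩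
  have h1 : ∀ j, dist (F (j + m) z) (F (j + 1 + m) z) ≤ ε / 2 ^ m / 2 / 2 ^ j := fun j => by
    rw [add_right_comm]
    refine (h _ z (hm (by omega) hz)).trans_eq ?_
    rw [pow_add]
    field_simp
  obtain ⟨a, ha⟩ := cauchySeq_tendsto_of_complete
    (cauchySeq_of_le_geometric_two (f := fun j => F (j + m) z) h1)
  simp only [((tendsto_add_atTop_iff_nat (f := fun j => F j z) m).1 ha).limUnder_eq]
  simpa using dist_le_of_le_geometric_two_of_tendsto₀ (f := fun j => F (j + m) z) h1 ha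

variable [IsManifold 𝓘(ℂ, C2) ω X] [FiniteDimensional ℂ V]

theorem pk_good (hO : All.IsOka X) {K : Set V} (hK : Good K) : PK X K :=
  ⟨hK.1, fun _ hf => saf_good hO hK hf, peak_good hK⟩

theorem PK.union (hO : All.IsOka X) [ConnectedSpace X] {K : Set V} (hK : PK X K) (A : Finset V) :
    PK X (K ∪ A) := by
  classical
  induction A using Finset.induction_on with
  | empty => simpa using hK
  | insert p A _ ih =>
    by_cases hp : p ∈ K ∪ (A : Set V)
    · rwa [Finset.coe_insert, union_insert, insert_eq_of_mem hp]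
    rw [Finset.coe_insert, union_insert, ← union_singleton]
    exact ⟨ih.1.union isCompact_singleton, fun f hf =>
      SAf.union hO (ih.2.1 f (hf.filter_mono (nhdsSet_mono subset_union_left)))
        (saf_good hO ⟨isCompact_singleton, convex_singleton p⟩
          (hf.filter_mono (nhdsSet_mono subset_union_right))) (ih.2.2.sepN hp),
      ih.2.2.union ih.1 p⟩

theorem step (hO : All.IsOka X) [ConnectedSpace X] {K : Set V} (hK : PK X K) {A : Set V}
    (hA : A.Finite) {g f : V → X} (hg : HN K g) (hf : HN A f) (k : V → ℕ)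
    (h : ∀ a ∈ A, a ∈ K → Agr (k a) a g f) {ε : ℝ} (hε : 0 < ε) : ∃ F : V → X, (∀ z, MD F z) ∧
      (∀ z ∈ K, dist (F z) (g z) < ε) ∧ ∀ a ∈ A, Agr (k a) a F f := by
  classical
  have := FiniteDimensional.proper ℂ V
  obtain ⟨δ, hδ, hs⟩ := hK.1.exists_cthickening_subset_open
    ((hA.subset (diff_subset (t := K))).isClosed.isOpen_compl)
    (fun z hz h => h.2 hz)
  let u : V → X := fun z => if z ∈ cthickening δ K then g z else f z
  have e1 : ∀ z ∈ K, u =ᶠ[𝓝 z] g := fun z hz => by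
    filter_upwards [isOpen_thickening.mem_nhds (self_subset_thickening hδ K hz)] with w hw
    exact if_pos (thickening_subset_cthickening _ _ hw)
  have e2 : ∀ z ∈ A, z ∉ K → u =ᶠ[𝓝 z] f := fun z hz hz' => by
    filter_upwards [isClosed_cthickening.isOpen_compl.mem_nhds fun h => hs h ⟨hz, hz'⟩] with w hw
    exact if_neg hw
  have hP := hK.union hO hA.toFinset
  obtain ⟨F, f1, f2, f3⟩ := jets hP.1 (hP.2.1 u (eventually_nhdsSet_iff_forall.2 fun z hz => by
    by_cases hz' : z ∈ K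
    · filter_upwards [eventually_nhdsSet_iff_forall.1 hg z hz', (e1 z hz').eventually_nhds]
        with w a b
      exact MDifferentiableAt.congr_of_eventuallyEq a b
    · have hzA : z ∈ A := by simpa [hz'] using hz
      filter_upwards [eventually_nhdsSet_iff_forall.1 hf z hzA, (e2 z hzA hz').eventually_nhds]
        with w a b
      exact MDifferentiableAt.congr_of_eventuallyEq a b)) hA.toFinset (fun a ha => Or.inr ha)
    (hA.toFinset.sup k) hε
  refine ⟨F, f1, fun z hz => (e1 z hz).self_of_nhds ▸ f2 z (Or.inl hz), fun a ha => ?_⟩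
  have a1 := (f3 a (hA.mem_toFinset.2 ha)).mono (Finset.le_sup (f := k) (hA.mem_toFinset.2 ha))
  by_cases ha' : a ∈ K
  · exact (a1.congr (e1 a ha')).trans (h a ha ha')
  · exact a1.congr (e2 a ha ha')

/-- jets survive in the limit -/
theorem agr_lim {U : Set V} (hU : IsOpen U) {F : ℕ → V → X} {G f : V → X}
    (hF : ∀ n z, MD (F n) z) (hG : TendstoUniformlyOn F G atTop U) {k : ℕ} {a : V} (ha : a ∈ U)
    (h : ∀ᶠ n in atTop, Agr k a (F n) f) : Agr k a G f := by
  have := FiniteDimensional.proper ℂ V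
  have h0 : G a = f a := tendsto_nhds_unique (hG.tendsto_at ha)
    (tendsto_const_nhds.congr' (h.mono fun n hn => hn.1.symm))
  set c := chartAt C2 (f a) with hc
  have hcs : f a ∈ c.source := mem_chart_source C2 _
  obtain ⟨ρ, hρ, h1⟩ := Metric.eventually_nhds_iff.1 ((c.open_source.eventually_mem hcs).and
    ((c.continuousAt hcs).eventually (ball_mem_nhds _ one_pos)))
  have hGc : ContinuousAt G a := (hG.continuousOn
    (Frequently.of_forall fun n => (cont_of (hF n)).continuousOn)).continuousAt (hU.mem_nhds ha)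
  obtain ⟨r, hr, h2⟩ := Metric.eventually_nhds_iff.1 ((hU.eventually_mem ha).and
    (hGc.eventually (ball_mem_nhds _ (half_pos hρ))))
  have h3 : ∀ᶠ n in atTop, Agr k a (F n) f ∧ ∀ z ∈ ball a r, dist (F n z) (f a) < ρ := by
    filter_upwards [h, Metric.tendstoUniformlyOn_iff.1 hG _ (half_pos hρ)] with n a1 a2
    refine ⟨a1, fun z hz => ?_⟩
    have b1 := mem_ball.1 (h2 hz).2
    rw [h0] at b1
    linarith [dist_triangle_left (F n z) (f a) (G z), a2 z (h2 hz).1]
  obtain ⟨N, hN⟩ := h3.exists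
  refine ⟨h0, (IsBigO.add (f₁ := fun z => c (G z) - c (F N z)) ?_ hN.1.2).congr_left
    fun z => sub_add_sub_cancel _ _ _⟩
  refine IsBigO.of_bound (2 / r ^ (k + 1)) ?_
  filter_upwards [ball_mem_nhds a hr] with z hz
  have b0 : G z ∈ c.source := (h1 (show dist (G z) (f a) < ρ by
    have b1 := mem_ball.1 (h2 hz).2
    rw [h0] at b1
    linarith)).1
  refine le_of_tendsto (((c.continuousAt b0).tendsto.comp (hG.tendsto_at (h2 hz).1)).sub_const
    (c (F N z))).norm ?_
  filter_upwards [h3] with n hn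
  have e0 : c (F n a) - c (F N a) = 0 := by rw [hn.1.1, hN.1.1, sub_self]
  have b2 := Complex.dist_le_mul_div_pow_of_mapsTo_ball_of_isLittleO
    (f := fun w => c (F n w) - c (F N w)) (R₂ := 2) (n := k) (fun w hw =>
      ((Inv.md_chart (hF n w) (h1 (hn.2 w hw)).1).sub
        (Inv.md_chart (hF N w) (h1 (hN.2 w hw)).1)).differentiableWithinAt)
    (fun w hw => by
      rw [e0, mem_closedBall_zero_iff, ← dist_eq_norm]
      linarith [dist_triangle_right (c (F n w)) (c (F N w)) (c (f a)),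
        mem_ball.1 (h1 (hn.2 w hw)).2, mem_ball.1 (h1 (hN.2 w hw)).2])
    (by
      simp only [e0, sub_zero]
      refine ((IsBigO.sub hn.1.2 hN.1.2).congr_left fun w => sub_sub_sub_cancel_right _ _ _
        ).trans_isLittleO ?_
      refine (isLittleO_pow_pow (𝕜 := ℝ) (Nat.lt_succ_self k)).comp_tendsto ?_
      exact tendsto_norm_sub_self a) hz
  rw [e0, dist_zero_right, dist_eq_norm, div_pow] at b2
  rw [Real.norm_of_nonneg (by positivity)]
  exact b2.trans_eq (by ring)

theorem lim (hO : All.IsOka X) [ConnectedSpace X] [CompleteSpace X] {K : Set V} (hK : PK X K)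
    {L : ℕ → Set V} (hL : ∀ n, Good (L n)) (hm : Monotone L) (hKL : K ⊆ L 0) {D : Set V}
    (hD : ∀ n, (D ∩ L n).Finite) {f : V → X} (hf : HN (K ∪ D) f) (k : V → ℕ) {ε : ℝ}
    (hε : 0 < ε) : ∃ F : V → X, (∀ n, ∀ z ∈ interior (L n), MD F z) ∧
      (∀ z ∈ K, dist (F z) (f z) < ε) ∧ ∀ n, ∀ a ∈ D ∩ interior (L n), Agr (k a) a F f := by
  have m1 : IsManifold 𝓘(ℂ, C2) 1 X := IsManifold.of_le (n := ω) le_top
  have hfD : ∀ n, HN (D ∩ L n) f := fun n =>
    hf.filter_mono (nhdsSet_mono (inter_subset_left.trans subset_union_right))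
  obtain ⟨F, f1, f2⟩ := P290.K.exists_seq_of_step
    (P := fun n (F : V → X) => (∀ z, MD F z) ∧ (∀ a ∈ D ∩ L n, Agr (k a) a F f) ∧
      (n = 0 → ∀ z ∈ K, dist (F z) (f z) < ε / 2))
    (Q := fun n F F' => ∀ z ∈ L n, dist (F z) (F' z) ≤ ε / 2 / 2 / 2 ^ n)
    (by
      obtain ⟨F, a1, a2, a3⟩ := step hO hK (hD 0) (hf.filter_mono (nhdsSet_mono subset_union_left))
        (hfD 0) k (fun a _ _ => ⟨rfl, by simp [Van, isBigO_zero]⟩) (half_pos hε)
      exact ⟨F, a1, a3, fun _ => a2⟩)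
    (by
      rintro n F ⟨a1, a2, -⟩
      obtain ⟨F', b1, b2, b3⟩ := step hO (pk_good hO (hL n)) (hD (n + 1)) (hn_of a1) (hfD _) k
        (fun a ha ha' => a2 a ⟨ha.1, ha'⟩) (show 0 < ε / 2 / 2 / 2 ^ n by positivity)
      exact ⟨F', ⟨b1, b3, fun h => by omega⟩, fun z hz => dist_comm (F' z) _ ▸ (b2 z hz).le⟩)
  obtain ⟨G, hG⟩ := lim_seq hm f2
  have hu : ∀ n, TendstoUniformlyOn F G atTop (interior (L n)) := fun n =>
    Metric.tendstoUniformlyOn_iff.2 fun η hη => by
      have h1 : Tendsto (fun m : ℕ => ε / 2 / 2 ^ m) atTop (𝓝 0) :=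
        (tendsto_pow_atTop_atTop_of_one_lt one_lt_two).const_div_atTop _
      filter_upwards [h1.eventually_lt_const hη, eventually_ge_atTop n] with m a1 a2 z hz
      rw [dist_comm]
      exact (hG n z (interior_subset hz) m a2).trans_lt a1
  refine ⟨G, fun n => H801.mdiff_of_unif isOpen_interior
    (Eventually.of_forall fun m z _ => (f1 m).1 z) (hu n), fun z hz => ?_, fun n a ha =>
    agr_lim isOpen_interior (fun m => (f1 m).1) (hu n) ha.2 ?_⟩
  · have a1 := hG 0 z (hKL hz) 0 le_rfl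
    rw [pow_zero, div_one] at a1
    linarith [dist_triangle_left (G z) (f z) (F 0 z), (f1 0).2.2 rfl z hz]
  · filter_upwards [eventually_ge_atTop n] with m hm'
    exact (f1 m).2.1 a ⟨ha.1, hm hm' (interior_subset ha.2)⟩

/-- approximation and interpolation on convex domains -/
theorem interp (hO : All.IsOka X) [ConnectedSpace X] [CompleteSpace X] {Ω K D : Set V}
    (hΩ : IsOpen Ω) (hc : Convex ℝ Ω) (hK : PK X K) (hKΩ : K ⊆ Ω) (hDΩ : D ⊆ Ω)
    (hD : ∀ C ⊆ Ω, IsCompact C → (D ∩ C).Finite) {f : V → X} (hf : HN (K ∪ D) f) (k : V → ℕ)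
    {ε : ℝ} (hε : 0 < ε) : ∃ F : V → X, (∀ z ∈ Ω, MD F z) ∧
      (∀ z ∈ K, dist (F z) (f z) < ε) ∧ ∀ a ∈ D, Agr (k a) a F f := by
  have := FiniteDimensional.proper ℂ V
  obtain ⟨δ, hδ, hs⟩ := hK.1.exists_thickening_subset_open hΩ hKΩ
  obtain ⟨R, hR⟩ := hK.1.isBounded.subset_closedBall (0 : V)
  let L : ℕ → Set V := fun n => closedBall 0 (R + n) ∩ {z | ball z (δ / (n + 1)) ⊆ Ω}
  have hL : ∀ n, Good (L n) := fun n => by
    refine ⟨(isCompact_closedBall _ _).inter_right ?_, (convex_closedBall _ _).inter ?_⟩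
    · rw [← isOpen_compl_iff]
      convert isOpen_thickening (δ := δ / (n + 1)) (E := Ωᶜ) using 1
      ext z
      simp only [mem_compl_iff, mem_setOf_eq, not_subset, mem_thickening_iff, mem_ball,
        dist_comm z, and_comm]
    · intro z hz w hw s t h1 h2 h3 v hv
      have e : v = s • (z + (v - (s • z + t • w))) + t • (w + (v - (s • z + t • w))) := by
        rw [smul_add s z, smul_add t w, add_add_add_comm, ← add_smul, h3, one_smul,
          add_sub_cancel]
      rw [mem_ball, dist_eq_norm] at hv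
      rw [e]
      exact hc (hz (by simpa using hv)) (hw (by simpa using hv)) h1 h2 h3
  have hLΩ : ∀ n, L n ⊆ Ω := fun n z hz => hz.2 (mem_ball_self (by positivity))
  have hex : ∀ z ∈ Ω, ∃ n, z ∈ interior (L n) := fun z hz => by
    obtain ⟨r, hr, h1⟩ := Metric.isOpen_iff.1 hΩ z hz
    have h2 : Tendsto (fun n : ℕ => δ / ((n : ℝ) + 1)) atTop (𝓝 0) :=
      (tendsto_atTop_add_const_right _ _ tendsto_natCast_atTop_atTop).const_div_atTop _
    obtain ⟨n, n1, n2⟩ := ((h2.eventually_lt_const (half_pos hr)).and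
      (tendsto_natCast_atTop_atTop.eventually_ge_atTop (‖z‖ + r / 2 - R))).exists
    refine ⟨n, mem_interior_iff_mem_nhds.2 (mem_of_superset (ball_mem_nhds z (half_pos hr))
      fun w hw => ⟨?_, (ball_subset_ball' ?_).trans h1⟩)⟩
    · rw [mem_ball, dist_eq_norm] at hw
      rw [mem_closedBall_zero_iff]
      linarith [norm_sub_norm_le w z]
    · linarith [mem_ball.1 hw]
  obtain ⟨F, f1, f2, f3⟩ := lim hO hK hL (fun n m h z hz => ⟨closedBall_subset_closedBall
      (by have : (n : ℝ) ≤ m := by exact_mod_cast h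
          linarith) hz.1, (ball_subset_ball (by gcongr)).trans hz.2⟩)
    (fun z hz => ⟨by simpa using hR hz, by
      simpa using (ball_subset_thickening hz δ).trans hs⟩)
    (fun n => hD _ (hLΩ n) (hL n).1) hf k hε
  exact ⟨F, fun z hz => (hex z hz).elim fun n hn => f1 n z hn, f2,
    fun a ha => (hex a (hDΩ ha)).elim fun n hn => f3 n a ⟨ha, hn⟩⟩

theorem hit {x : X} {ρ : ℝ} (hρ : 0 < ρ)
    (h : closedBall (chartAt C2 x x) (3 * ρ) ⊆ (chartAt C2 x).target) : ∃ δ > (0 : ℝ),
      ∀ (F : C2 → X) (v : C2), (∀ z, MD F z) →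
        (∀ s : C2, ‖s‖ ≤ 1 → dist (F (v + s)) (sg x ρ s) < δ) →
        ∀ s : C2, ‖s‖ ≤ 1 / 8 → ∃ z, F z = sg x ρ s ∧ All.Etale F z := by
  set c := chartAt C2 x with hc
  have hρ' : (ρ : ℂ) ≠ 0 := by exact_mod_cast hρ.ne'
  have hm : ∀ s : C2, ‖s‖ ≤ 1 → c x + (ρ : ℂ) • s ∈ c.target := fun s hs =>
    sg_mem hρ h (by linarith)
  have hsrc : ∀ s : C2, ‖s‖ ≤ 1 → sg x ρ s ∈ c.source := fun s hs => c.map_target (hm s hs)
  obtain ⟨δ, hδ, k⟩ := Throw.unif ((isCompact_closedBall (0 : C2) 1).image_of_continuousOn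
    (f := sg x ρ) fun s hs => (md_sg hρ h (v := id) differentiableAt_id
      ((mem_closedBall_zero_iff.1 hs).trans (by norm_num))).continuousAt.continuousWithinAt)
    (f := fun y => (ρ : ℂ)⁻¹ • (c y - c x)) (by
      rintro _ ⟨s, hs, rfl⟩
      have := c.continuousAt (hsrc s (mem_closedBall_zero_iff.1 hs))
      fun_prop)
    (c.open_source.mem_nhdsSet.2 (by
      rintro _ ⟨s, hs, rfl⟩
      exact hsrc s (mem_closedBall_zero_iff.1 hs))) (show (0 : ℝ) < 1 / 8 by norm_num)
  refine ⟨δ, hδ, fun F v hF hd s hs => ?_⟩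
  have h1 : ∀ w ∈ ball v 1, F w ∈ c.source ∧
      ‖v + (ρ : ℂ)⁻¹ • (c (F w) - c x) - w‖ ≤ 1 / 8 := fun w hw => by
    have a0 : ‖w - v‖ ≤ 1 := (mem_ball_iff_norm.1 hw).le
    have a1 := k _ ⟨w - v, mem_closedBall_zero_iff.2 a0, rfl⟩ (F w) (by simpa using hd _ a0)
    refine ⟨a1.1, ?_⟩
    have a2 := a1.2.le
    rw [sg, c.right_inv (hm _ a0), add_sub_cancel_left, inv_smul_smul₀ hρ', dist_eq_norm] at a2
    rwa [show v + (ρ : ℂ)⁻¹ • (c (F w) - c x) - w = (ρ : ℂ)⁻¹ • (c (F w) - c x) - (w - v) by abel]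
  have h2 : ∀ w ∈ ball v 1, DifferentiableAt ℂ (fun w => c (F w)) w := fun w hw =>
    Inv.md_chart (hF w) (h1 w hw).1
  have h3 : ∀ w ∈ ball v 1, HasFDerivAt (fun w => v + (ρ : ℂ)⁻¹ • (c (F w) - c x))
      ((ρ : ℂ)⁻¹ • fderiv ℂ (fun w => c (F w)) w) w := fun w hw =>
    (((h2 w hw).hasFDerivAt.sub_const (c x)).const_smul (ρ : ℂ)⁻¹).const_add v
  have h4 : DifferentiableOn ℂ (fun w => v + (ρ : ℂ)⁻¹ • (c (F w) - c x) - w) (ball v 1) :=
    fun w hw => ((h3 w hw).differentiableAt.sub differentiableAt_id).differentiableWithinAt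
  obtain ⟨t, t1, t2⟩ := nearId_surj one_pos h4 (fun w hw => (h1 w hw).2) (by norm_num)
    (by norm_num) (b := v + s) (by simpa using hs)
  have h5 : v + t ∈ ball v (1 / 2) := by
    rw [mem_ball_iff_norm, add_sub_cancel_left]
    linarith
  have h6 : v + t ∈ ball v 1 := ball_subset_ball (by norm_num) h5
  refine ⟨v + t, ?_, Inv.etale_of_chart (hF _).continuousAt (h1 _ h6).1 (h2 _ h6) ?_⟩
  · rw [add_sub_cancel, add_right_inj, inv_smul_eq_iff₀ hρ', sub_eq_iff_eq_add'] at t2
    rw [sg, ← t2, c.left_inv (h1 _ h6).1]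
  · have h7 := Spr.inj_of_near (h3 _ h6).differentiableAt
      (fderiv_le_of_bound one_pos h4 (fun w hw => (h1 w hw).2) (by norm_num) h5)
    rw [(h3 _ h6).fderiv] at h7
    intro a b hab
    exact h7 (by simp only [ContinuousLinearMap.smul_apply]; rw [hab])

/-- a strongly dominating map -/
theorem dom (hO : All.IsOka X) [ConnectedSpace X] [CompactSpace X] :
    ∃ F : C2 → X, (∀ z, MD F z) ∧ ∀ x, ∃ z, F z = x ∧ All.Etale F z := by
  classical
  choose ρ hρ h using exists_rad (X := X)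
  choose δ hδ k using fun x => hit (hρ x) (h x)
  have key : ∀ t : Finset X, ∃ (S : Set C2) (f : C2 → X), Bornology.IsBounded S ∧ Apx S f ∧
      ∀ x ∈ t, ∃ v, ∀ s : C2, ‖s‖ ≤ 1 → v + s ∈ S ∧ f (v + s) = sg x (ρ x) s := fun t => by
    induction t using Finset.induction_on with
    | empty =>
      obtain ⟨x⟩ : Nonempty X := inferInstance
      exact ⟨∅, fun _ => x, Bornology.isBounded_empty,
        fun _ _ => ⟨fun _ => x, md_const _, by simp⟩, by simp⟩
    | insert x t _ ih =>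
      obtain ⟨S, f, s1, s2, s3⟩ := ih
      obtain ⟨R, hR, hR'⟩ := s1.exists_pos_norm_le
      have hT : 0 < 4 * R + 5 := by positivity
      have hT' : ((4 * R + 5 : ℝ) : ℂ) ≠ 0 := by exact_mod_cast hT.ne'
      let v : C2 := (((4 * R + 5 : ℝ) : ℂ), 0)
      have hs : Sep S (closedBall v 1) := fun η hη => by
        obtain ⟨u, u1, u2, u3⟩ := sep_of (u := fun z : C2 => z.1 / ((4 * R + 5 : ℝ) : ℂ))
          (by fun_prop) η hη
        refine ⟨u, u1, fun z hz => u2 z ?_, fun z hz => u3 z ?_⟩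
        · rw [mem_setOf_eq, norm_div, Complex.norm_real, Real.norm_of_nonneg hT.le,
            div_lt_iff₀ hT]
          linarith [norm_fst_le z, hR' z hz]
        · rw [mem_setOf_eq, div_sub_one hT', norm_div, Complex.norm_real,
            Real.norm_of_nonneg hT.le, div_lt_iff₀ hT]
          have a1 : ‖z.1 - ((4 * R + 5 : ℝ) : ℂ)‖ ≤ ‖z - v‖ := norm_fst_le (z - v)
          linarith [mem_closedBall_iff_norm.1 hz]
      have hb := s1.union (isBounded_closedBall (x := v) (r := 1))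
      refine ⟨S ∪ closedBall v 1, fun z => if z ∈ S then f z else sg x (ρ x) (z - v), hb,
        Apx.union hO (s2.congr fun z hz => if_pos hz) (Apx.congr (f := fun z => sg x (ρ x) (z - v))
          (cap hO ⟨isCompact_closedBall _ _, convex_closedBall _ _⟩ ?_)
          fun z hz => if_neg fun h => hs.disjoint h hz) hb hs, fun y hy => ?_⟩
      · exact eventually_nhdsSet_iff_exists.2 ⟨ball v 3, isOpen_ball,
          closedBall_subset_ball (by norm_num), fun z hz => md_sg (hρ x) (h x) (by fun_prop)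
            (mem_ball_iff_norm.1 hz).le⟩
      rcases Finset.mem_insert.1 hy with rfl | hy
      · refine ⟨v, fun s hs' => ?_⟩
        have a1 : v + s ∈ closedBall v 1 := by simpa using hs'
        exact ⟨Or.inr a1, (if_neg fun h => hs.disjoint h a1).trans (by rw [add_sub_cancel_left])⟩
      · obtain ⟨w, hw⟩ := s3 y hy
        exact ⟨w, fun s hs' => ⟨Or.inl (hw s hs').1, (if_pos (hw s hs').1).trans (hw s hs').2⟩⟩
  obtain ⟨t, -, ht⟩ := isCompact_univ.elim_nhds_subcover
    (fun x => sg x (ρ x) '' closedBall 0 (1 / 8)) fun x _ => by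
      have hρ' : (ρ x : ℂ) ≠ 0 := by exact_mod_cast (hρ x).ne'
      have hcs := mem_chart_source C2 x
      have a1 : ContinuousAt (fun y => (ρ x : ℂ)⁻¹ • (chartAt C2 x y - chartAt C2 x x)) x := by
        have := (chartAt C2 x).continuousAt hcs
        fun_prop
      filter_upwards [(chartAt C2 x).open_source.mem_nhds hcs,
        a1.eventually (closedBall_mem_nhds _ (show (0 : ℝ) < 1 / 8 by norm_num))] with y b1 b2
      refine ⟨_, by simpa using b2, ?_⟩
      rw [sg, smul_inv_smul₀ hρ', add_sub_cancel, (chartAt C2 x).left_inv b1]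
  obtain ⟨S, f, -, s2, s3⟩ := key t
  obtain ⟨ε, hε, hε'⟩ : ∃ ε > (0 : ℝ), ∀ x ∈ t, ε ≤ δ x := by
    obtain ⟨ε, a1, a2⟩ := (((eventually_all_finset t).2 fun x _ =>
      (eventually_le_nhds (hδ x)).filter_mono (nhdsWithin_le_nhds (s := Ioi (0 : ℝ)))).and
      self_mem_nhdsWithin).exists
    exact ⟨ε, a2, a1⟩
  obtain ⟨F, f1, f2⟩ := s2 ε hε
  refine ⟨F, f1, fun y => ?_⟩
  obtain ⟨x, hx, s, hs, rfl⟩ := mem_iUnion₂.1 (ht (mem_univ y))
  obtain ⟨v, hv⟩ := s3 x hx
  exact k x F v f1 (fun s hs => (hv s hs).2 ▸ (f2 _ (hv s hs).1).trans_le (hε' x hx)) s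
    (mem_closedBall_zero_iff.1 hs)

end Vale.Agent.N290
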