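import Vale.Agent.N290.Plane
import Vale.Agent.N290.Defs
import Vale.Agent.P290L37.Main

/-! P290: transfer to the intrinsic objects. -/

set_option linter.all false

open Set Filter Metric Asymptotics
open scoped Topology Manifold ContDiff ENNReal

noncomputable section

namespace Vale.Agent.N290

open Vale.Agent.P290 Vale.Agent.P290Z Vale.Agent.P290L Vale.Agent.P290L37

theorem interp' {X : Type} [TopologicalSpace X] [T2Space X] [CompactSpace X] [ConnectedSpace X]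
    [ChartedSpace C2 X] [IsManifold 𝓘(ℂ, C2) ω X] (hO : All.IsOka X) {m : ℕ}
    {Ω K D : Set (Fin m → ℂ)} (hΩ : IsOpen Ω) (hc : Convex ℝ Ω) (hK : IsCompact K)
    (hK' : Convex ℝ K ∨ (m = 1 ∧ IsPreconnected Kᶜ))
    (hD : ∀ C ⊆ Ω, IsCompact C → (D ∩ C).Finite) (hs : K ∪ D ⊆ Ω) {f : (Fin m → ℂ) → X}
    (hf : HN (K ∪ D) f) (k : (Fin m → ℂ) → ℕ) {N : Set (X × X)} (hN : IsOpen N)
    (hN' : ∀ x, (x, x) ∈ N) : ∃ F : (Fin m → ℂ) → X, (∀ z ∈ Ω, MD F z) ∧
      (∀ z ∈ K, (F z, f z) ∈ N) ∧ ∀ a ∈ D, F a = f a ∧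
        Van (k a) a fun z => chartAt C2 (f a) (F z) - chartAt C2 (f a) (f z) := by
  have : SecondCountableTopology X := ChartedSpace.secondCountable_of_sigmaCompact C2 X
  let _ : MetricSpace X := TopologicalSpace.metrizableSpaceMetric X
  obtain ⟨δ, hδ, h⟩ := Metric.mem_uniformity_dist.1 (nhdsSet_diagonal_eq_uniformity (α := X) ▸
    hN.mem_nhdsSet.2 (by rintro ⟨x, y⟩ (rfl : x = y); exact hN' x))
  have hP : PK X K := by
    rcases hK' with h | ⟨rfl, h⟩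
    · exact pk_good hO ⟨hK, h⟩
    · let e : (Fin 1 → ℂ) ≃L[ℂ] ℂ := ContinuousLinearEquiv.funUnique (Fin 1) ℂ ℂ
      refine PK.pre e (Full.pk hO ⟨hK.image e.continuous, ?_⟩)
      rw [← image_compl_eq e.bijective]
      exact h.image _ e.continuous.continuousOn
  obtain ⟨F, f1, f2, f3⟩ := interp hO hΩ hc hP (subset_union_left.trans hs)
    (subset_union_right.trans hs) hD hf k hδ
  exact ⟨F, f1, fun z hz => h (f2 z hz), f3⟩

theorem dom' {X : Type} [TopologicalSpace X] [T2Space X] [CompactSpace X] [ConnectedSpace X]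
    [ChartedSpace C2 X] [IsManifold 𝓘(ℂ, C2) ω X] (hO : All.IsOka X) :
    ∃ F : C2 → X, (∀ z, MD F z) ∧ ∀ x, ∃ z, F z = x ∧ All.Etale F z := by
  have : SecondCountableTopology X := ChartedSpace.secondCountable_of_sigmaCompact C2 X
  let _ : MetricSpace X := TopologicalSpace.metrizableSpaceMetric X
  exact dom hO

variable {E : Type} [NormedAddCommGroup E] [NormedSpace ℂ E] {X : Type} [TopologicalSpace X]
  [ChartedSpace E X] [IsManifold 𝓘(ℂ, E) ω X]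

theorem md_cs (L : E ≃L[ℂ] C2) {m : ℕ} (f : (Fin m → ℂ) → X) (z : Fin m → ℂ) :
    @MD _ X _ _ _ (cs X L) f z ↔ MDifferentiableAt 𝓘(ℂ, Fin m → ℂ) 𝓘(ℂ, E) f z :=
  (@Inv.md_iff _ X _ _ _ (cs X L) f z).trans (hol_iff L f z)

theorem main (all : ∀ X : All.K3, All.IsOka X.X) (h : IsK3 E X) :
    ((∃ g : Met E X, IsHermitian g) ∧ ∀ g : Met E X, IsHermitian g → P290L.IsOka g) ∧
    (∀ g : Met E X, IsHermitian g → Interp g) ∧
    ∃ F : (Fin 2 → ℂ) → X, Hol (E := E) 2 F ∧ ∀ x, ∃ z, F z = x ∧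
      Function.Surjective (mfderiv 𝓘(ℂ, Fin 2 → ℂ) 𝓘(ℂ, E) F z) := by
  have h0 := (P290L37.main all).1 h
  obtain ⟨h1, h2, h3, h4, h5, h6⟩ := h
  obtain ⟨σ, hσ, hσ0⟩ := form_of_triv h6
  have : FiniteDimensional ℂ E := Module.finite_of_finrank_pos (by omega)
  have L : E ≃L[ℂ] C2 := ContinuousLinearEquiv.ofFinrankEq (by rw [h1]; simp)
  have hO : @All.IsOka X _ (cs X L) := all (toK3 L σ hσ hσ0)
  refine ⟨⟨h0.1, fun g hg => (h0.2 g hg).1⟩, ?_, ?_⟩
  · intro g _ m Ω K D U a1 a2 a3 a4 a5 a6 a7 a8 f hf k ε hε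
    obtain ⟨d1, d0⟩ := dist_cont g
    obtain ⟨F, f1, f2, f3⟩ := @interp' X _ _ _ _ (cs X L) (cs_manifold L) hO m Ω K D a1 a2 a3 a4 a5
      a6 f (eventually_nhdsSet_iff_exists.2 ⟨U, a7, a8, fun z hz =>
        (md_cs L f z).2 ((hf z hz).mdifferentiableAt (a7.mem_nhds hz))⟩) k _
      (isOpen_lt d1 (continuous_const (y := ENNReal.ofReal ε))) fun x => by simp [d0, hε]
    refine ⟨F, fun z hz => ((md_cs L F z).1 (f1 z hz)).mdifferentiableWithinAt, f2,
      fun a ha => ⟨(f3 a ha).1, IsBigO.trans ?_ (f3 a ha).2⟩⟩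
    exact (L.isBigO_comp_rev _ _).congr_right fun z => map_sub L _ _
  · obtain ⟨F, f1, f2⟩ := @dom' X _ _ _ _ (cs X L) (cs_manifold L) hO
    let e : (Fin 2 → ℂ) ≃L[ℂ] C2 := ContinuousLinearEquiv.finTwoArrow ℂ ℂ
    refine ⟨fun z => F (e z), fun z => (md_cs L _ z).1
      (@Inv.md_comp _ _ X _ _ _ _ _ (cs X L) F e z (f1 _) e.differentiableAt), fun x => ?_⟩
    obtain ⟨z, rfl, b1, b2, b3⟩ := f2 x
    obtain ⟨z, rfl⟩ := e.surjective z
    refine ⟨z, rfl, ?_⟩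
    have b4 := (L.symm.hasFDerivAt.comp (e z) b2.hasFDerivAt).comp z e.hasFDerivAt
    have b5 : HasMFDerivAt 𝓘(ℂ, Fin 2 → ℂ) 𝓘(ℂ, E) (fun z => F (e z)) z _ :=
      ⟨b1.comp e.continuous.continuousAt, b4.hasFDerivWithinAt.congr_of_eventuallyEq
        (Eventually.of_forall fun w => (L.symm_apply_apply _).symm) (L.symm_apply_apply _).symm⟩
    rw [b5.mfderiv]
    exact (L.symm.surjective.comp (LinearMap.injective_iff_surjective.1
      (Inv.det_ne_iff.1 b3))).comp e.surjective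

end Vale.Agent.N290
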