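import Vale.Agent.N290.Lim
import Vale.Agent.P153.R2.L1.Rmt

/-! P290: compact subsets of the plane with connected complement. -/

set_option linter.all false

open Set Filter Metric
open scoped Topology Manifold ContDiff

noncomputable section

namespace Vale.Agent.N290

open Vale.Agent.P290 Vale.Agent.P290Z

/-- compact with connected complement -/
def Full (K : Set ℂ) : Prop := IsCompact K ∧ IsPreconnected Kᶜ

theorem not_bdd_compl {K : Set ℂ} (hK : Bornology.IsBounded K) : ¬ Bornology.IsBounded Kᶜ :=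
  fun h => NormedSpace.unbounded_univ ℂ ℂ (union_compl_self K ▸ hK.union h)

theorem Full.runge {K W : Set ℂ} (hK : Full K) (hW : IsOpen W) (hKW : K ⊆ W) {t : ℂ → ℂ}
    (ht : DifferentiableOn ℂ t W) {η : ℝ} (hη : 0 < η) :
    ∃ θ : ℂ → ℂ, Differentiable ℂ θ ∧ ∀ z ∈ K, ‖θ z - t z‖ < η := by
  obtain ⟨f, f0, f1, -⟩ := exists_contMDiffMap_zero_one_nhds_of_isClosed (n := 1)
    (modelWithCornersSelf ℝ ℂ) hW.isClosed_compl hK.1.isClosed (disjoint_compl_left_iff_subset.2 hKW)
  have hf : ContDiff ℝ 1 f := by exact_mod_cast f.contMDiff.contDiff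
  obtain ⟨θ, h1, h2⟩ := runge_lite hK.1
    (fun a ha => ⟨Kᶜ, hK.2, not_bdd_compl hK.1.isBounded, ha, disjoint_compl_left⟩)
    (φ := fun z => (f z : ℂ) * t z) (contDiff_iff_contDiffAt.2 fun z => by
      by_cases hz : z ∈ W
      · exact (Complex.ofRealCLM.contDiff.comp hf).contDiffAt.mul
          (((ht.analyticAt (hW.mem_nhds hz)).contDiffAt (n := 1)).restrict_scalars ℝ)
      · refine (contDiffAt_const (c := (0 : ℂ))).congr_of_eventuallyEq ?_
        filter_upwards [f0.filter_mono (nhds_le_nhdsSet hz)] with w hw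
        simp [hw])
    (Eventually.of_forall fun z hz => by
      refine (ht.differentiableAt (hW.mem_nhds (hKW hz))).congr_of_eventuallyEq ?_
      filter_upwards [f1.filter_mono (nhds_le_nhdsSet hz)] with w hw
      simp [hw]) hη
  exact ⟨θ, h1, fun z hz => by simpa [f1.self_of_nhdsSet z hz] using h2 z hz⟩

theorem Full.peak {K : Set ℂ} (hK : Full K) : Peak K := by
  intro p hp η hη
  obtain ⟨C, hC⟩ := hK.1.exists_bound_of_continuousOn (f := fun z => z - p) (by fun_prop)
  obtain ⟨q, q1, q2⟩ := hK.runge (isOpen_compl_singleton (x := p)) (subset_compl_singleton_iff.2 hp)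
    (t := fun z => (z - p)⁻¹) (DifferentiableOn.inv (by fun_prop) fun z hz => sub_ne_zero.2 hz)
    (show 0 < η / (|C| + 1) by positivity)
  refine ⟨fun z => 1 - (z - p) * q z, by fun_prop, by simp, fun z hz => ?_⟩
  have h0 : z - p ≠ 0 := sub_ne_zero.2 fun h => hp (h ▸ hz)
  have a1 := (lt_div_iff₀ (by positivity)).1 (q2 z hz)
  have a2 := (hC z hz).trans (le_abs_self C)
  simp only
  rw [show 1 - (z - p) * q z = -((z - p) * (q z - (z - p)⁻¹)) by field_simp; ring, norm_neg,
    norm_mul]
  nlinarith [norm_nonneg (q z - (z - p)⁻¹)]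

theorem Full.hull {K U : Set ℂ} (hK : Full K) (hU : IsOpen U) (hKU : K ⊆ U) :
    ∃ H, Full H ∧ K ⊆ interior H ∧ H ⊆ U := by
  obtain ⟨R, hR, h1⟩ := (hK.1.isBounded.cthickening (δ := 1)).subset_closedBall_lt 0 0
  let z₀ : ℂ := Complex.exp (Real.log R + 1 : ℝ)
  let A : ℕ → Set ℂ := fun n => connectedComponentIn (cthickening (1 / (n + 1)) K)ᶜ z₀
  have hd : ∀ {n m : ℕ}, n ≤ m → cthickening (1 / (m + 1)) K ⊆ cthickening (1 / (n + 1)) K :=
    fun h => cthickening_mono (by gcongr) K
  have hA : Monotone A := fun n m h => connectedComponentIn_mono _ (compl_subset_compl.2 (hd h))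
  have hAo : ∀ n, IsOpen (A n) := fun n => isClosed_cthickening.isOpen_compl.connectedComponentIn
  have hE0 : Complex.exp '' {w : ℂ | Real.log R < w.re} ⊆ (cthickening 1 K)ᶜ := by
    rintro _ ⟨w, hw, rfl⟩ h
    have := mem_closedBall_zero_iff.1 (h1 h)
    rw [Complex.norm_exp, ← Real.le_log_iff_exp_le hR] at this
    exact this.not_gt hw
  have hz₀ : z₀ ∈ Complex.exp '' {w : ℂ | Real.log R < w.re} := ⟨_, by simp, rfl⟩
  have hE : ∀ z : ℂ, R < ‖z‖ → z ∈ A 0 := fun z hz => by
    have h0 : z ≠ 0 := norm_pos_iff.1 (hR.trans hz)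
    refine ((convex_halfSpace_re_gt _).isPreconnected.image _
      Complex.continuous_exp.continuousOn).subset_connectedComponentIn hz₀ (by simpa using hE0)
      ⟨Complex.log z, ?_, Complex.exp_log h0⟩
    rw [mem_setOf_eq, Complex.log_re]
    exact Real.log_lt_log hR hz
  have hz₁ : z₀ ∈ Kᶜ := fun h => hE0 hz₀ (self_subset_cthickening K h)
  obtain ⟨n, hn⟩ := ((isCompact_closedBall (0 : ℂ) R).inter_left hU.isClosed_compl
    ).elim_directed_cover A hAo (fun a ha => by
      obtain ⟨γ, hγ⟩ := (hK.1.isClosed.isOpen_compl.isConnected_iff_isPathConnected.1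
        ⟨⟨z₀, hz₁⟩, hK.2⟩).joinedIn z₀ hz₁ a fun h => ha.1 (hKU h)
      obtain ⟨δ, hδ, h2⟩ := hK.1.exists_cthickening_subset_open
        (isCompact_range γ.continuous).isClosed.isOpen_compl
        (by rintro z hz ⟨s, rfl⟩; exact hγ s hz)
      obtain ⟨n, hn⟩ := exists_nat_one_div_lt hδ
      refine mem_iUnion.2 ⟨n, (isPreconnected_range γ.continuous).subset_connectedComponentIn
        ⟨0, γ.source⟩ (subset_compl_comm.1 ((cthickening_mono hn.le K).trans h2)) ⟨1, γ.target⟩⟩)
    hA.directed_le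
  refine ⟨(A n)ᶜ, ⟨isCompact_of_isClosed_isBounded (hAo n).isClosed_compl
    ((isBounded_closedBall (x := (0 : ℂ)) (r := R)).subset fun z hz => mem_closedBall_zero_iff.2
      (not_lt.1 fun h => hz (hA n.zero_le (hE z h)))), ?_⟩, ?_, fun z hz => by_contra fun h => hz ?_⟩
  · rw [compl_compl]
    exact isPreconnected_connectedComponentIn
  · refine (self_subset_thickening (δ := 1 / (n + 1)) (by positivity) K).trans
      (interior_maximal ((thickening_subset_cthickening _ _).trans ?_) isOpen_thickening)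
    exact subset_compl_comm.1 (connectedComponentIn_subset _ _)
  · rcases lt_or_ge R ‖z‖ with h3 | h3
    · exact hA n.zero_le (hE z h3)
    · exact hn ⟨h, mem_closedBall_zero_iff.2 h3⟩

theorem open_rest {W : Set ℂ} (hW : IsOpen W) (p : ℂ) : IsOpen (W \ connectedComponentIn W p) := by
  refine isOpen_iff_mem_nhds.2 fun z hz => mem_of_superset
    (hW.connectedComponentIn.mem_nhds (mem_connectedComponentIn hz.1)) fun w hw =>
      ⟨connectedComponentIn_subset _ _ hw, fun h => hz.2 ?_⟩
  rw [connectedComponentIn_eq h, ← connectedComponentIn_eq hw]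
  exact mem_connectedComponentIn hz.1

open Classical in
theorem pw_ev {W : Set ℂ} (hW : IsOpen W) (p : ℂ) (t : ℂ → ℂ) (c : ℂ) {z : ℂ} (hz : z ∈ W) :
    (z ∈ connectedComponentIn W p ∧ (connectedComponentIn W p).piecewise t (fun _ => c) =ᶠ[𝓝 z] t) ∨
      (connectedComponentIn W p).piecewise t (fun _ => c) =ᶠ[𝓝 z] fun _ => c := by
  by_cases h : z ∈ connectedComponentIn W p
  · refine Or.inl ⟨h, ?_⟩
    filter_upwards [hW.connectedComponentIn.mem_nhds h] with w hw
    exact piecewise_eq_of_mem _ _ _ hw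
  · refine Or.inr ?_
    filter_upwards [(open_rest hW p).mem_nhds ⟨hz, h⟩] with w hw
    exact piecewise_eq_of_notMem _ _ _ hw.2

theorem Full.runge' {H W : Set ℂ} (hH : Full H) (hW : IsOpen W) (hHW : H ⊆ W) (p : ℂ) {t : ℂ → ℂ}
    (ht : DifferentiableOn ℂ t (connectedComponentIn W p)) {η : ℝ} (hη : 0 < η) :
    ∃ θ : ℂ → ℂ, Differentiable ℂ θ ∧ (∀ z ∈ H, z ∈ connectedComponentIn W p → ‖θ z - t z‖ < η) ∧
      ∀ z ∈ H, z ∉ connectedComponentIn W p → ‖θ z‖ < η := by
  classical
  obtain ⟨θ, h1, h2⟩ := hH.runge hW hHW (t := (connectedComponentIn W p).piecewise t fun _ => 0)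
    (fun z hz => DifferentiableAt.differentiableWithinAt <| by
      rcases pw_ev hW p t 0 hz with ⟨a, b⟩ | b
      · exact (ht.differentiableAt (hW.connectedComponentIn.mem_nhds a)).congr_of_eventuallyEq b
      · exact (differentiableAt_const _).congr_of_eventuallyEq b) hη
  exact ⟨θ, h1, fun z hz hz' => by simpa [hz'] using h2 z hz,
    fun z hz hz' => by simpa [hz'] using h2 z hz⟩

theorem Full.rdom {H : Set ℂ} (hH : Full H) {p : ℂ} (hp : p ∈ interior H) :
    P153.TOP.RMT.RDom (connectedComponentIn (interior H) p) := by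
  classical
  refine ⟨isConnected_connectedComponentIn_iff.2 hp, fun f hf hf0 => P153.TOP.logOn_of_compacts
    isOpen_interior.connectedComponentIn isPreconnected_connectedComponentIn fun Q hQ hQc => ?_⟩
  obtain ⟨F, h1, h2⟩ := P153.TOP.logOn_compact_of_noBdd (U := interior H) isOpen_interior
    (fun z hz => ⟨closure Hᶜ, hH.2.closure, by rwa [closure_compl], by rw [closure_compl],
      fun h => not_bdd_compl hH.1.isBounded (h.subset subset_closure)⟩)
    (f := (connectedComponentIn (interior H) p).piecewise f fun _ => 1)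
    (fun z hz => ContinuousAt.continuousWithinAt <| by
      rcases pw_ev isOpen_interior p f 1 hz with ⟨a, b⟩ | b
      · exact (hf.continuousAt (isOpen_interior.connectedComponentIn.mem_nhds a)).congr b.symm
      · exact continuousAt_const.congr b.symm)
    (fun z hz => by
      rcases pw_ev isOpen_interior p f 1 hz with ⟨a, b⟩ | b
      · exact b.self_of_nhds ▸ hf0 z a
      · exact b.self_of_nhds ▸ one_ne_zero) hQc (hQ.trans (connectedComponentIn_subset _ _))
  exact ⟨F, h1, fun z hz => (h2 z hz).trans (piecewise_eq_of_mem _ _ _ (hQ hz))⟩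

variable {X : Type} [MetricSpace X] [ChartedSpace C2 X] [IsManifold 𝓘(ℂ, C2) ω X]

theorem Full.pk (hO : All.IsOka X) [ConnectedSpace X] {K : Set ℂ} (hK : Full K) : PK X K := by
  classical
  refine ⟨hK.1, fun f hf => ?_, hK.peak⟩
  obtain ⟨U, hU, hKU, hfU⟩ := mem_nhdsSet_iff_exists.1 hf
  obtain ⟨H, hH, h1, h2⟩ := hK.hull hU hKU
  obtain ⟨H', hH', h3, h4⟩ := hK.hull isOpen_interior h1
  let Ω := connectedComponentIn (interior H)
  have hΩ : ∀ p, IsOpen (Ω p) := fun p => isOpen_interior.connectedComponentIn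
  have hΩU : ∀ p, Ω p ⊆ H := fun p => (connectedComponentIn_subset _ _).trans interior_subset
  have hK' := h3.trans interior_subset
  have one : ∀ p ∈ K, SAf (K ∩ Ω p) f := fun p hp => by
    obtain ⟨g, g1, g2, g3, g4, -⟩ := P153.TOP.RMT.exists_onto_disc (hΩ p) (hH.rdom (h1 hp))
      (fun h => not_bdd_compl Bornology.isBounded_empty
        (by rw [compl_empty, ← h]; exact hH.1.isBounded.subset (hΩU p)))
      (mem_connectedComponentIn (h1 hp))
    have hc : IsCompact (K ∩ Ω p) := by
      convert hK.1.inter_right (open_rest (isOpen_interior (s := H)) p).isClosed_compl using 1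
      exact Set.ext fun z => and_congr_right fun hz => by simp [h1 hz, Ω]
    obtain ⟨r, hr, hr'⟩ := exists_lt_subset_ball (hc.image_of_continuousOn
      (g1.continuousOn.mono inter_subset_right)).isClosed (g3 ▸ image_mono inter_subset_right)
    refine SAf.pull (C := closedBall 0 r) (f' := fun w => f (Function.invFunOn g (Ω p) w))
      (saf_good hO ⟨isCompact_closedBall _ _, convex_closedBall _ _⟩
        (eventually_nhdsSet_iff_exists.2 ⟨ball 0 1, isOpen_ball, closedBall_subset_ball hr, ?_⟩))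
      (isOpen_interior.inter (hΩ p)) (inter_subset_inter_left _ h3)
      (hH'.1.isBounded.subset (inter_subset_left.trans interior_subset))
      (g1.mono inter_subset_right)
      (fun z hz => ball_subset_closedBall (hr' (mem_image_of_mem g hz)))
      (fun z hz => by rw [g2.leftInvOn_invFunOn hz.2]) fun η hη => ?_
    · rw [← g3]
      rintro _ ⟨z, hz, rfl⟩
      refine Inv.md_comp ?_ (((g1.analyticAt ((hΩ p).mem_nhds hz)).hasStrictDerivAt
        ).to_local_left_inverse (g4 z hz) (mem_of_superset ((hΩ p).mem_nhds hz)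
          fun w hw => g2.leftInvOn_invFunOn hw)).hasDerivAt.differentiableAt
      rw [g2.leftInvOn_invFunOn hz]
      exact hfU (h2 (hΩU p hz))
    · obtain ⟨θ, t1, t2, -⟩ := hH'.runge' isOpen_interior h4 p g1 hη
      exact ⟨θ, t1, fun z hz => t2 z (interior_subset hz.1) hz.2⟩
  have mono : ∀ {A B : Set ℂ}, SAf A f → B ⊆ A → SAf B f :=
    fun ⟨O, a, b, c⟩ h => ⟨O, a, h.trans b, c⟩
  have key : ∀ t : Finset ℂ, (∀ p ∈ t, p ∈ K) → SAf (K ∩ ⋃ p ∈ t, Ω p) f := fun t => by
    induction t using Finset.induction_on with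
    | empty => exact fun _ => mono (saf_good hO ⟨isCompact_empty, convex_empty⟩
        (by simp [HN])) (by simp)
    | insert p t _ ih =>
      intro ht
      obtain ⟨u, u1, u2, u3⟩ := hH'.runge' isOpen_interior h4 p (differentiableOn_const (1 : ℂ))
        (show (0 : ℝ) < 1 / 4 by norm_num)
      refine mono (SAf.union hO (mono (B := (K ∩ ⋃ q ∈ t, Ω q) \ Ω p)
        (ih fun q hq => ht q (Finset.mem_insert_of_mem hq)) diff_subset)
        (one p (ht p (Finset.mem_insert_self _ _))) (sepN_of u1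
          (fun z hz => u3 z (hK' hz.1.1) hz.2) fun z hz => u2 z (hK' hz.1) hz.2)) fun z hz => ?_
      by_cases h : z ∈ Ω p
      · exact Or.inr ⟨hz.1, h⟩
      · exact Or.inl ⟨⟨hz.1, by simpa [h] using hz.2⟩, h⟩
  obtain ⟨t, t1, t2⟩ := hK.1.elim_nhds_subcover Ω fun p hp =>
    (hΩ p).mem_nhds (mem_connectedComponentIn (h1 hp))
  exact mono (key t t1) (subset_inter Subset.rfl t2)

theorem PK.pre {V W : Type} [NormedAddCommGroup V] [NormedSpace ℂ V] [NormedAddCommGroup W]
    [NormedSpace ℂ W] [FiniteDimensional ℂ W] (e : V ≃L[ℂ] W) {K : Set V} (h : PK X (e '' K)) :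
    PK X K := by
  have hK : IsCompact K := e.toHomeomorph.isCompact_image.1 h.1
  obtain ⟨R, hR⟩ := hK.isBounded.subset_ball (0 : V)
  refine ⟨hK, fun f hf => SAf.pull (g := e) (h.2.1 (fun w => f (e.symm w))
    (eventually_nhdsSet_iff_forall.2 ?_)) isOpen_ball hR isBounded_ball e.differentiableOn
    (mapsTo_image _ _) (fun z _ => by simp) fun η hη => ⟨e, e.differentiable, fun z _ => by simpa using hη⟩,
    fun p hp η hη => ?_⟩
  · rintro _ ⟨z, hz, rfl⟩
    filter_upwards [(e.symm.continuous.tendsto (e z)).eventually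
      (by simpa using eventually_nhdsSet_iff_forall.1 hf z hz)] with w hw
    exact Inv.md_comp hw e.symm.differentiableAt
  · obtain ⟨u, u1, u2, u3⟩ := h.2.2 (e p) (by simpa using hp) η hη
    exact ⟨fun z => u (e z), u1.comp e.differentiable, u2, fun z hz => u3 _ ⟨z, hz, rfl⟩⟩

end Vale.Agent.N290
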