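import Vale.Agent.N290.Join

/-! P290: Taylor polynomials, Hermite interpolation with bounds, peak functions. -/

set_option linter.all false

open Set Filter Metric Asymptotics
open scoped Topology

noncomputable section

namespace Vale.Agent.N290

open Vale.Agent.P290

variable {V F : Type} [NormedAddCommGroup V] [NormedSpace ℂ V] [NormedAddCommGroup F]
  [NormedSpace ℂ F]

/-- `h` vanishes at `a` to order `k` -/
def Van (k : ℕ) (a : V) (h : V → F) : Prop := h =O[𝓝 a] fun z => ‖z - a‖ ^ (k + 1)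

theorem Van.smul_left {k : ℕ} {a : V} {h : V → F} {u : V → ℂ} (hu : ContinuousAt u a)
    (hh : Van k a h) : Van k a fun z => u z • h z := by
  simpa [Van] using (hu.tendsto.isBigO_one ℝ).smul hh

theorem Van.smul_right {k : ℕ} {a : V} {h : V → F} {u : V → ℂ} (hu : Van k a u)
    (hh : ContinuousAt h a) : Van k a fun z => u z • h z := by
  simpa [Van] using IsBigO.smul hu (hh.tendsto.isBigO_one ℝ)

theorem Van.mono {k l : ℕ} {a : V} {h : V → F} (hh : Van k a h) (hl : l ≤ k) : Van l a h := by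
  refine hh.trans (IsBigO.of_bound' ?_)
  filter_upwards [ball_mem_nhds a one_pos] with z hz
  rw [mem_ball, dist_eq_norm] at hz
  rw [Real.norm_of_nonneg (by positivity), Real.norm_of_nonneg (by positivity)]
  exact pow_le_pow_of_le_one (norm_nonneg _) hz.le (by omega)

theorem van_pow {a : V} {u : V → ℂ} (hu : DifferentiableAt ℂ u a) (h0 : u a = 0) (k : ℕ) :
    Van k a fun z => u z ^ (k + 1) := by
  have h := hu.isBigO_sub.norm_right
  simp only [h0, sub_zero] at h
  exact h.pow _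

theorem taylor [CompleteSpace F] {t : V → F} {a : V} {r M : ℝ} (hr : 0 < r)
    (hd : DifferentiableOn ℂ t (ball a r)) (hb : ∀ z ∈ ball a r, ‖t z‖ ≤ M) (k : ℕ) :
    ∃ T : V → F, Differentiable ℂ T ∧ Van k a (fun z => T z - t z) ∧
      ∀ z, ‖T z‖ ≤ M * ∑ i ∈ Finset.range (k + 1), (2 * ‖z - a‖ / r) ^ i := by
  have hM : 0 ≤ M := (norm_nonneg _).trans (hb a (mem_ball_self hr))
  let c : ℕ → V → F := fun i z =>
    (i.factorial : ℂ)⁻¹ • iteratedDeriv i (fun w : ℂ => t (a + w • (z - a))) 0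
  have hmem : ∀ (z : V) (w : ℂ), z ≠ a → w ∈ ball (0 : ℂ) (r / ‖z - a‖) →
      a + w • (z - a) ∈ ball a r := fun z w hz hw => by
    rw [mem_ball_zero_iff, lt_div_iff₀ (norm_pos_iff.2 (sub_ne_zero.2 hz))] at hw
    rwa [mem_ball, dist_eq_norm, add_sub_cancel_left, norm_smul]
  have hdz : ∀ z : V, z ≠ a →
      DifferentiableOn ℂ (fun w : ℂ => t (a + w • (z - a))) (ball 0 (r / ‖z - a‖)) :=
    fun z hz => hd.comp (by fun_prop) fun w hw => hmem z w hz hw
  have hca : ∀ i, c i a = if i = 0 then t a else 0 := fun i => by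
    simp only [c, sub_self, smul_zero, add_zero, iteratedDeriv_const]
    split_ifs with h
    · simp [h]
    · simp
  have hc : ∀ i z, ‖c i z‖ ≤ M * (2 * ‖z - a‖ / r) ^ i := fun i z => by
    rcases eq_or_ne z a with rfl | hz
    · rw [hca]
      split_ifs with h
      · simpa [h] using hb z (mem_ball_self hr)
      · rw [norm_zero]; positivity
    have h0 : 0 < ‖z - a‖ := norm_pos_iff.2 (sub_ne_zero.2 hz)
    have h1 : 0 < r / ‖z - a‖ := by positivity
    have hsub : closedBall (0 : ℂ) (r / ‖z - a‖ / 2) ⊆ ball 0 (r / ‖z - a‖) :=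
      closedBall_subset_ball (half_lt_self h1)
    have := Complex.norm_iteratedDeriv_le_of_forall_mem_sphere_norm_le (C := M) i (half_pos h1)
      (((hdz z hz).mono (closure_ball_subset_closedBall.trans hsub)).diffContOnCl)
      (fun w hw => hb _ (hmem z w hz (hsub (sphere_subset_closedBall hw))))
    rw [norm_smul, norm_inv, Complex.norm_natCast]
    refine (mul_le_mul_of_nonneg_left this (by positivity)).trans_eq ?_
    have : (i.factorial : ℝ) ≠ 0 := by positivity
    rw [show 2 * ‖z - a‖ / r = (r / ‖z - a‖ / 2)⁻¹ by field_simp, inv_pow]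
    field_simp
  refine ⟨fun z => ∑ i ∈ Finset.range (k + 1), c i z, fun z => ?_, ?_, fun z => ?_⟩
  · refine DifferentiableAt.fun_sum fun i _ => DifferentiableAt.fun_const_smul ?_ _
    refine differentiableAt_iteratedDeriv_of_prod (G := fun p : V × ℂ => t (a + p.2 • (p.1 - a)))
      ?_ i
    have h1 : Continuous fun p : V × ℂ => a + p.2 • (p.1 - a) := by fun_prop
    filter_upwards [(h1.tendsto (z, 0)).eventually
      (isOpen_ball.mem_nhds (show a + (0 : ℂ) • (z - a) ∈ ball a r by simpa))] with p hp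
    exact (hd.differentiableAt (isOpen_ball.mem_nhds hp)).comp p (by fun_prop)
  · refine IsBigO.of_bound (2 * M * (2 / r) ^ (k + 1)) ?_
    filter_upwards [ball_mem_nhds a (show 0 < r / 4 by positivity)] with z hz
    rw [mem_ball, dist_eq_norm] at hz
    rcases eq_or_ne z a with rfl | hz'
    · simp [hca]
    have h0 : 0 < ‖z - a‖ := norm_pos_iff.2 (sub_ne_zero.2 hz')
    have h1 : 2 * ‖z - a‖ / r ≤ 1 / 2 := by rw [div_le_iff₀ hr]; linarith
    have hs := Complex.hasSum_taylorSeries_on_ball (hdz z hz') (z := 1)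
      (by rw [mem_ball_zero_iff, norm_one, lt_div_iff₀ h0]; linarith)
    simp only [sub_zero, one_pow, one_smul, add_sub_cancel] at hs
    refine (norm_sub_le_of_geometric_bound_of_hasSum (by linarith) (fun i => hc i z) hs _).trans ?_
    rw [Real.norm_of_nonneg (by positivity), div_le_iff₀ (by linarith)]
    have e : (2 * ‖z - a‖ / r) ^ (k + 1) = (2 / r) ^ (k + 1) * ‖z - a‖ ^ (k + 1) := by
      rw [← mul_pow]; congr 1; ring
    rw [e]
    have : 0 ≤ M * ((2 / r) ^ (k + 1) * ‖z - a‖ ^ (k + 1)) := by positivity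
    nlinarith
  · rw [Finset.mul_sum]
    exact (norm_sum_le _ _).trans (Finset.sum_le_sum fun i _ => hc i z)

theorem exists_aff {a b : V} (h : a ≠ b) :
    ∃ u : V → ℂ, Differentiable ℂ u ∧ u a = 1 ∧ u b = 0 := by
  obtain ⟨l, hl⟩ := SeparatingDual.exists_eq_one (R := ℂ) (sub_ne_zero.2 h)
  exact ⟨fun z => l (z - b), by fun_prop, hl, by simp⟩

theorem cut (k : ℕ) (a : V) (A : Finset V) (ha : a ∉ A) : ∃ v : V → ℂ, Differentiable ℂ v ∧
    Van k a (fun z => 1 - v z) ∧ ∀ b ∈ A, Van k b v := by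
  obtain ⟨u, u1, u2, u3⟩ : ∃ u : V → ℂ, Differentiable ℂ u ∧ u a = 1 ∧ ∀ b ∈ A, u b = 0 := by
    classical
    induction A using Finset.induction_on with
    | empty => exact ⟨fun _ => 1, by fun_prop, rfl, by simp⟩
    | insert b A hb ih =>
      rw [Finset.mem_insert, not_or] at ha
      obtain ⟨u, u1, u2, u3⟩ := ih ha.2
      obtain ⟨w, w1, w2, w3⟩ := exists_aff ha.1
      refine ⟨fun z => u z * w z, u1.mul w1, by simp [u2, w2], fun c hc => ?_⟩
      rcases Finset.mem_insert.1 hc with rfl | hc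
      · simp [w3]
      · simp [u3 c hc]
  refine ⟨fun z => 1 - (1 - u z ^ (k + 1)) ^ (k + 1), by fun_prop, ?_, fun b hb => ?_⟩
  · simp only [sub_sub_cancel]
    exact van_pow (by fun_prop) (by simp [u2]) k
  · have h := (van_pow (u1 b) (u3 b hb) k).smul_right
      (h := fun z => ∑ i ∈ Finset.range (k + 1), (1 - u z ^ (k + 1)) ^ i)
      (by have := u1.continuous; fun_prop)
    refine h.congr_left fun z => ?_
    rw [smul_eq_mul, ← mul_neg_geom_sum (1 - u z ^ (k + 1)), sub_sub_cancel]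

/-- Hermite interpolation with bounds -/
theorem herm [FiniteDimensional ℂ V] [CompleteSpace F] (k : ℕ) {r : ℝ} (hr : 0 < r) {S : Set V}
    (hS : IsCompact S) (A : Finset V) : ∃ C > (0 : ℝ), ∀ (t : V → F) (M : ℝ), 0 ≤ M →
      (∀ a ∈ A, DifferentiableOn ℂ t (ball a r) ∧ ∀ z ∈ ball a r, ‖t z‖ ≤ M) →
      ∃ φ : V → F, Differentiable ℂ φ ∧ (∀ a ∈ A, Van k a fun z => φ z - t z) ∧
        ∀ z ∈ S, ‖φ z‖ ≤ C * M := by
  classical
  induction A using Finset.induction_on with
  | empty => exact ⟨1, one_pos, fun t M hM _ => ⟨fun _ => 0, by fun_prop, by simp, fun _ _ => by simpa⟩⟩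
  | insert a A ha ih =>
    obtain ⟨C, hC, h⟩ := ih
    obtain ⟨v, v1, v2, v3⟩ := cut k a A ha
    obtain ⟨C₁, h₁⟩ := hS.exists_bound_of_continuousOn v1.continuous.continuousOn
    obtain ⟨C₂, h₂⟩ := hS.exists_bound_of_continuousOn
      (f := fun z => ∑ i ∈ Finset.range (k + 1), (2 * ‖z - a‖ / r) ^ i) (by fun_prop)
    refine ⟨(1 + |C₁|) * C + |C₁| * |C₂|, by positivity, fun t M hM ht => ?_⟩
    obtain ⟨φ, p1, p2, p3⟩ := h t M hM fun b hb => ht b (Finset.mem_insert_of_mem hb)
    have hta := ht a (Finset.mem_insert_self a A)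
    obtain ⟨T, t1, t2, t3⟩ := taylor hr hta.1 hta.2 k
    have hc : ∀ b ∈ insert a A, ContinuousAt t b := fun b hb =>
      ((ht b hb).1.differentiableAt (ball_mem_nhds b hr)).continuousAt
    refine ⟨fun z => (1 - v z) • φ z + v z • T z, by fun_prop, fun b hb => ?_, fun z hz => ?_⟩
    · have e : (fun z => (1 - v z) • φ z + v z • T z - t z) =
          fun z => (1 - v z) • (φ z - t z) + v z • (T z - t z) := funext fun z => by module
      rw [e]
      rcases Finset.mem_insert.1 hb with rfl | hb'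
      · exact (v2.smul_right (p1.continuous.continuousAt.sub (hc b hb))).add
          (t2.smul_left v1.continuous.continuousAt)
      · exact ((p2 b hb').smul_left (u := fun z => 1 - v z)
          (continuous_const.sub v1.continuous).continuousAt).add
          ((v3 b hb').smul_right (t1.continuous.continuousAt.sub (hc b hb)))
    · have a1 : ‖v z‖ ≤ |C₁| := (h₁ z hz).trans (le_abs_self _)
      have a2 : ‖1 - v z‖ ≤ 1 + |C₁| := (norm_sub_le _ _).trans (by rw [norm_one]; linarith)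
      have a3 : ‖T z‖ ≤ M * |C₂| := (t3 z).trans (mul_le_mul_of_nonneg_left
        ((le_abs_self _).trans ((h₂ z hz).trans (le_abs_self _))) hM)
      refine (norm_add_le _ _).trans ?_
      rw [norm_smul, norm_smul]
      have a4 := mul_le_mul a2 (p3 z hz) (norm_nonneg _) (by positivity)
      have a5 := mul_le_mul a1 a3 (norm_nonneg _) (abs_nonneg _)
      linarith

/-- an entire function which is close to `0` near `0` and close to `1` near `1` -/
theorem newton {η : ℝ} (hη : 0 < η) : ∃ χ : ℂ → ℂ, Differentiable ℂ χ ∧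
    (∀ w, ‖w‖ < 1 / 4 → ‖χ w‖ < η) ∧ ∀ w, ‖w - 1‖ < 1 / 4 → ‖χ w - 1‖ < η := by
  have key : ∀ n : ℕ, ∃ χ : ℂ → ℂ, Differentiable ℂ χ ∧ (∀ w, χ (1 - w) = 1 - χ w) ∧
      ∀ w, ‖w‖ < 1 / 4 → ‖χ w‖ ≤ (7 / 8) ^ n * ‖w‖ := by
    intro n
    induction n with
    | zero => exact ⟨id, differentiable_id, fun _ => rfl, fun w _ => by simp⟩
    | succ n ih =>
      obtain ⟨χ, h1, h2, h3⟩ := ih
      refine ⟨fun w => χ (w * (w * (3 - 2 * w))), h1.comp (by fun_prop), fun w => ?_,
        fun w hw => ?_⟩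
      · rw [← h2]
        congr 1
        ring
      · have a1 : ‖3 - 2 * w‖ ≤ 7 / 2 := (norm_sub_le _ _).trans (by
          rw [norm_mul, Complex.norm_ofNat, Complex.norm_ofNat]; linarith)
        have a0 := norm_nonneg w
        have a2 : ‖w * (w * (3 - 2 * w))‖ ≤ 7 / 8 * ‖w‖ := by
          rw [norm_mul, norm_mul]
          have := mul_le_mul hw.le a1 (norm_nonneg _) (by norm_num)
          nlinarith
        refine (h3 _ (by linarith)).trans ?_
        rw [pow_succ, mul_assoc]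
        gcongr
  obtain ⟨n, hn⟩ := exists_pow_lt_of_lt_one hη (show (7 / 8 : ℝ) < 1 by norm_num)
  obtain ⟨χ, h1, h2, h3⟩ := key n
  have h4 : ∀ w, ‖w‖ < 1 / 4 → ‖χ w‖ < η := fun w hw => (h3 w hw).trans_lt (by
    have : (0 : ℝ) < (7 / 8) ^ n := by positivity
    nlinarith)
  refine ⟨χ, h1, h4, fun w hw => ?_⟩
  rw [norm_sub_rev] at hw ⊢
  rw [← h2]
  exact h4 _ hw

theorem sep_of {u : V → ℂ} (hu : Differentiable ℂ u) :
    Sep {z | ‖u z‖ < 1 / 4} {z | ‖u z - 1‖ < 1 / 4} := fun η hη => by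
  obtain ⟨χ, h1, h2, h3⟩ := newton hη
  exact ⟨fun z => χ (u z), h1.comp hu, fun z hz => h2 _ hz, fun z hz => h3 _ hz⟩

/-- separation of neighbourhoods -/
def SepN (A B : Set V) : Prop :=
  ∃ U U' : Set V, IsOpen U ∧ IsOpen U' ∧ A ⊆ U ∧ B ⊆ U' ∧ Sep U U'

theorem sepN_of {A B : Set V} {u : V → ℂ} (hu : Differentiable ℂ u) (hA : ∀ z ∈ A, ‖u z‖ < 1 / 4)
    (hB : ∀ z ∈ B, ‖u z - 1‖ < 1 / 4) : SepN A B :=
  ⟨_, _, isOpen_lt hu.continuous.norm continuous_const,
    isOpen_lt (hu.continuous.sub continuous_const).norm continuous_const, hA, hB, sep_of hu⟩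

/-- polynomial convexity -/
def Peak (K : Set V) : Prop := ∀ p ∉ K, ∀ η > (0 : ℝ), ∃ u : V → ℂ, Differentiable ℂ u ∧ u p = 1 ∧
  ∀ z ∈ K, ‖u z‖ < η

theorem Peak.sepN {K : Set V} (h : Peak K) {p : V} (hp : p ∉ K) : SepN K {p} := by
  obtain ⟨u, h1, h2, h3⟩ := h p hp (1 / 4) (by norm_num)
  exact sepN_of h1 h3 (by rintro _ rfl; simp [h2])

theorem Peak.union {K : Set V} (h : Peak K) (hK : IsCompact K) (q : V) : Peak (K ∪ {q}) := by
  intro p hp η hη
  rw [mem_union, not_or] at hp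
  obtain ⟨w, w1, w2, w3⟩ := exists_aff (a := p) (b := q) hp.2
  obtain ⟨C, hC⟩ := hK.exists_bound_of_continuousOn w1.continuous.continuousOn
  obtain ⟨u, u1, u2, u3⟩ := h p hp.1 (η / (|C| + 1)) (by positivity)
  refine ⟨fun z => u z * w z, u1.mul w1, by simp [u2, w2], ?_⟩
  rintro z (hz | rfl)
  · have a1 := (lt_div_iff₀ (by positivity)).1 (u3 z hz)
    have a2 := (hC z hz).trans (le_abs_self C)
    rw [norm_mul]
    nlinarith [norm_nonneg (u z)]
  · simpa [w3]

theorem peak_good {K : Set V} (hK : Good K) : Peak K := by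
  intro p hp η hη
  obtain ⟨l, c, h1, h2⟩ := RCLike.geometric_hahn_banach_closed_point (𝕜 := ℂ) hK.2 hK.1.isClosed hp
  have hc : 0 < (l p).re - c := sub_pos.2 h2
  obtain ⟨N, hN, hN0⟩ := ((Real.tendsto_exp_neg_atTop_nhds_zero.eventually
    (gt_mem_nhds hη)).and (eventually_ge_atTop 0)).exists
  refine ⟨fun z => Complex.exp ((N / ((l p).re - c) : ℝ) * (l z - l p)), by fun_prop, by simp,
    fun z hz => lt_of_le_of_lt ?_ hN⟩
  rw [Complex.norm_exp, Complex.re_ofReal_mul, Complex.sub_re]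
  refine Real.exp_le_exp.2 ?_
  have h3 : (l z).re < c := h1 z hz
  rw [div_mul_eq_mul_div, div_le_iff₀ hc]
  nlinarith

end Vale.Agent.N290
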